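import Mathlib

/-!
# P215: good groups

The definition of a *good* group: the thickenings of the disc-like capped gropes of height `1.5`,
framed immersed discs in them, and their double point loops.

The model disc is the square `D² = [-1, 1]²`, the model circle is its boundary.

A capped grope of height `1.5` is given by its combinatorial type (`CappedGrope`), and its
four-dimensional thickening is glued from explicit four-dimensional blocks `X × F`, where `X` is a
compact surface with boundary and `F = [1, 3]²` is the fibre (a disc):

* for a surface stage of genus `g` with one boundary circle, `X` is cut into a *base*, the square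
  `[0, L]²` minus `g` open squares, and `g` *handles*.  A handle is the torus `C × C`, `C` the
  boundary of the square `[0, L]²` (a circle), minus an open square; it is glued along the boundary
  of this square to the boundary of a hole of the base.  The two *tips* of a handle are the annuli
  `C × [1, 3]` and `[1, 3] × C`, where `[1, 3]` is a segment of the left side of `C`; they meet in a
  square, so that their core circles are a symplectic pair of curves of the surface;
* for a cap, `X` is the square `[0, L]²`.

The next stage (surface or cap) at a tip is attached along `∂X × F`, `∂X = C`, to the solid torus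
`(tip annulus) × (one side of the square F)` in the boundary of `handle × F`: the side `v.1 = 3` is
used for the first tip of each handle, the side `v.1 = 1` for the second one.
The caps are plumbed: small squares `A`, `B` in the interior of the caps are chosen, and `A × F` is
identified with `B × F` by exchanging the two factors (a positive double point), or by exchanging
them after a reflection in each of them (a negative double point).
With these conventions all blocks have the orientations of their coordinates.
-/

noncomputable section

namespace Vale.Agent.P215.H788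

open Set Topology

/-! ### Discs -/

/-- The model disc `D² = [-1, 1]²`, the closed unit ball of `ℝ × ℝ` for the supremum norm. -/
abbrev Disc : Type := Metric.closedBall (0 : ℝ × ℝ) 1

/-- The boundary circle of the model disc. -/
abbrev Circ : Type := Metric.sphere (0 : ℝ × ℝ) 1

/-- The centre of the model disc. -/
def Disc.zero : Disc := ⟨0, by simp⟩

/-- The inclusion of the boundary circle in the model disc. -/
def Circ.toDisc (z : Circ) : Disc := ⟨z.1, Metric.sphere_subset_closedBall z.2⟩

/-- A **framed generically immersed disc** in a four-manifold `W` whose framed boundary is the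
framed circle `e : S¹ × D² → W`: a map `Φ : D² × D² → W` (the immersed disc is `Φ` on `D² × {0}`)
which restricts to `e` on `S¹ × D²` and which is injective except for finitely many double points;
near a double point the two sheets are plumbed: there are embeddings `a k`, `b k` of `D²` in the
interior of `D²`, all of them with disjoint images, such that `Φ (a k u, v) = Φ (b k v, u)`, and
there are no other coincidences. -/
structure FramedDisc (W : Type) [TopologicalSpace W] (e : Circ × Disc → W) where
  /-- the map -/
  map : Disc × Disc → W
  continuous_map : Continuous map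
  /-- the framed boundary -/
  boundary : ∀ (z : Circ) (v : Disc), map (z.toDisc, v) = e (z, v)
  /-- the number of double points -/
  n : ℕ
  /-- the neighbourhoods of the first preimages of the double points -/
  a : Fin n → Disc → Disc
  /-- the neighbourhoods of the second preimages of the double points -/
  b : Fin n → Disc → Disc
  continuous_a : ∀ k, Continuous (a k)
  continuous_b : ∀ k, Continuous (b k)
  interior_a : ∀ k u, ‖(a k u).1‖ < 1
  interior_b : ∀ k u, ‖(b k u).1‖ < 1
  injective_a : ∀ k l u v, a k u = a l v → k = l ∧ u = v
  injective_b : ∀ k l u v, b k u = b l v → k = l ∧ u = v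
  disjoint_a_b : ∀ k l u v, a k u ≠ b l v
  /-- the plumbings -/
  plumb : ∀ k u v, map (a k u, v) = map (b k v, u)
  /-- there are no other coincidences -/
  injective_map : ∀ x y, map x = map y →
    x = y ∨ ∃ k u v, (x = (a k u, v) ∧ y = (b k v, u)) ∨ (y = (a k u, v) ∧ x = (b k v, u))

namespace FramedDisc

variable {W : Type} [TopologicalSpace W] {e : Circ × Disc → W} (D : FramedDisc W e)

/-- The first preimage of the double point number `k`. -/
def fst (k : Fin D.n) : Disc × Disc := (D.a k Disc.zero, Disc.zero)

/-- The second preimage of the double point number `k`. -/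
def snd (k : Fin D.n) : Disc × Disc := (D.b k Disc.zero, Disc.zero)

/-- The two preimages are mapped to the same point, the double point number `k`. -/
theorem map_fst (k : Fin D.n) : D.map (D.fst k) = D.map (D.snd k) :=
  D.plumb k Disc.zero Disc.zero

/-- The double point loop: the image of a path in `D² × D²` between the two preimages. -/
def doublePointLoop (k : Fin D.n) (l : Path (D.fst k) (D.snd k)) :
    Path (D.map (D.fst k)) (D.map (D.fst k)) :=
  (l.map D.continuous_map).cast rfl (D.map_fst k)

/-- All double point loops of the disc, joined to the base point by arbitrary paths `c`, are mapped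
to the identity by `φ`. -/
def Kills {x₀ : W} {Γ : Type} [Group Γ] (φ : FundamentalGroup W x₀ →* Γ) : Prop :=
  ∀ (k : Fin D.n) (c : Path x₀ (D.map (D.fst k))) (l : Path (D.fst k) (D.snd k)),
    φ (FundamentalGroup.fromPath
      (Path.Homotopic.Quotient.mk ((c.trans (D.doublePointLoop k l)).trans c.symm))) = 1

end FramedDisc

/-! ### Capped gropes of height 1.5 -/

/-- A tip `(s, j, b)`: the tip of the `j`-th handle of the surface number `s`; the first tip for
`b = false`, the second one for `b = true`. -/
abbrev Tip : Type := ℕ × ℕ × Bool

/-- The genus of the surface number `s` of a grope, if `l` is the list of the genera of the second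
stage surfaces: the surface number `0` is the first stage, and has as many handles as there are
second stage surfaces, and the surface number `i + 1` is the second stage surface number `i`. -/
def genusOf (l : List ℕ) : ℕ → ℕ
  | 0 => l.length
  | i + 1 => l.getD i 0

/-- The tips which carry a cap: all tips except for the first tip of each handle of the first
stage. -/
def IsCapped (l : List ℕ) (t : Tip) : Prop :=
  t.2.1 < genusOf l t.1 ∧ ¬ (t.1 = 0 ∧ t.2.2 = false)

/-- The combinatorial type of a **disc-like capped grope of height `1.5`**.
The first stage is the surface number `0`; to the first tip of its `j`-th handle the second stage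
surface number `j + 1` is attached, and all other tips are capped. -/
structure CappedGrope where
  /-- the genera of the second stage surfaces: one of them for each handle of the first stage -/
  genera : List ℕ
  genera_ne_nil : genera ≠ []
  genera_pos : ∀ n ∈ genera, 0 < n
  /-- the intersections and self-intersections of the caps: for each double point the two caps, given
  by their tips, and the sign -/
  plumbings : List (Tip × Tip × Bool)
  isCapped : ∀ e ∈ plumbings, IsCapped genera e.1 ∧ IsCapped genera e.2.1

/-- The blocks from which the thickening is glued. -/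
inductive Block : Type
  /-- the base of the surface number `s`, times the fibre -/
  | base (s : ℕ)
  /-- the `j`-th handle of the surface number `s`, times the fibre -/
  | handle (s j : ℕ)
  /-- the cap at the tip `t`, times the fibre -/
  | cap (t : Tip)
  deriving DecidableEq

instance : TopologicalSpace Block := ⊥

instance : DiscreteTopology Block := ⟨rfl⟩

/-- The block which is attached to a tip: a second stage surface for the first tips of the first
stage, and a cap for all other tips. -/
def nextBlock (t : Tip) : Block := if t.1 = 0 ∧ t.2.2 = false then .base (t.2.1 + 1) else .cap t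

/-- The square `[0, L]²`. -/
def Sq (L : ℝ) : Set (ℝ × ℝ) := {x | x.1 ∈ Icc 0 L ∧ x.2 ∈ Icc 0 L}

/-- The boundary of the square `[0, L]²`. -/
def bdSq (L : ℝ) : Set (ℝ × ℝ) := {x | x ∈ Sq L ∧ (x.1 = 0 ∨ x.1 = L ∨ x.2 = 0 ∨ x.2 = L)}

/-- The fibre `F = [1, 3]²`. -/
def Fib : Set (ℝ × ℝ) := {x | x.1 ∈ Icc 1 3 ∧ x.2 ∈ Icc 1 3}

/-- The boundary of the square `[1, 3]²`. -/
def bdFib : Set (ℝ × ℝ) := {x | x ∈ Fib ∧ (x.1 = 1 ∨ x.1 = 3 ∨ x.2 = 1 ∨ x.2 = 3)}

/-- The `j`-th hole `(4 j + 1, 4 j + 3) × (1, 3)`. -/
def hole (j : ℕ) : Set (ℝ × ℝ) := {x | x.1 ∈ Ioo (4 * (j : ℝ) + 1) (4 * j + 3) ∧ x.2 ∈ Ioo 1 3}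

/-- The reflection of the square `[1, 3]²` in its first coordinate. -/
def refl (x : ℝ × ℝ) : ℝ × ℝ := (4 - x.1, x.2)

/-- The space `ℝ² × ℝ² × ℝ²` in which the blocks live. -/
abbrev E : Type := (ℝ × ℝ) × (ℝ × ℝ) × (ℝ × ℝ)

namespace CappedGrope

variable (G : CappedGrope)

/-- The genus of the surface number `s`. -/
def genus (s : ℕ) : ℕ := genusOf G.genera s

/-- The length of the sides of the base squares: large enough for all holes and double points. -/
def L : ℝ := 4 * (1 + G.genera.length + G.genera.sum + 2 * G.plumbings.length : ℕ)

/-- The points of the blocks: `(p, q, v)` with `v` in the fibre and with `(p, q)`, or `p`, in the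
surface; `q` is only used for the handles. -/
def region : Block → Set E
  | .base s => {x | 0 < G.genus s ∧ (x.1 ∈ Sq G.L ∧ ∀ j < G.genus s, x.1 ∉ hole j) ∧ x.2.1 = 0 ∧
      x.2.2 ∈ Fib}
  | .handle s j => {x | j < G.genus s ∧ (x.1 ∈ bdSq G.L ∧ x.2.1 ∈ bdSq G.L ∧
      ¬ (x.1.1 = G.L ∧ x.2.1.1 = G.L ∧ x.1.2 ∈ Ioo 1 3 ∧ x.2.1.2 ∈ Ioo 1 3)) ∧ x.2.2 ∈ Fib}
  | .cap t => {x | IsCapped G.genera t ∧ x.1 ∈ Sq G.L ∧ x.2.1 = 0 ∧ x.2.2 ∈ Fib}

/-- The disjoint union of the blocks. -/
def Pts : Type := {x : Block × E // x.2 ∈ G.region x.1}

instance : TopologicalSpace G.Pts := instTopologicalSpaceSubtype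

/-- The identifications. -/
inductive Glue : Block × E → Block × E → Prop
  /-- the `j`-th handle is glued to the boundary of the `j`-th hole of the base -/
  | hole (s j : ℕ) (a v : ℝ × ℝ) (ha : a ∈ bdFib) :
      Glue (.base s, ((4 * j + a.1, a.2), 0, v)) (.handle s j, ((G.L, a.2), (G.L, a.1), v))
  /-- the next stage is attached to the first tip of a handle -/
  | fst (s j : ℕ) (z v : ℝ × ℝ) (hz : z ∈ bdSq G.L) (hv : v ∈ Fib) :
      Glue (nextBlock (s, j, false), (z, 0, v)) (.handle s j, (z, (0, v.1), (3, v.2)))
  /-- the next stage is attached to the second tip of a handle -/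
  | snd (s j : ℕ) (z v : ℝ × ℝ) (hz : z ∈ bdSq G.L) (hv : v ∈ Fib) :
      Glue (nextBlock (s, j, true), (z, 0, v)) (.handle s j, ((0, v.1), z, (1, v.2)))
  /-- the double point number `k` of the caps, positive -/
  | pos (k : ℕ) (c c' : Tip) (h : G.plumbings[k]? = some (c, c', true)) (u v : ℝ × ℝ)
      (hu : u ∈ Fib) (hv : v ∈ Fib) :
      Glue (.cap c, ((8 * k + u.1, u.2), 0, v)) (.cap c', ((8 * k + 4 + v.1, v.2), 0, u))
  /-- the double point number `k` of the caps, negative -/
  | neg (k : ℕ) (c c' : Tip) (h : G.plumbings[k]? = some (c, c', false)) (u v : ℝ × ℝ)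
      (hu : u ∈ Fib) (hv : v ∈ Fib) :
      Glue (.cap c, ((8 * k + u.1, u.2), 0, v))
        (.cap c', ((8 * k + 4 + (refl v).1, (refl v).2), 0, refl u))

/-- **The four-dimensional thickening** of the capped grope. -/
def Thickening : Type := Quot fun x y : G.Pts => G.Glue x.1 y.1

instance : TopologicalSpace G.Thickening :=
  inferInstanceAs (TopologicalSpace (Quot fun x y : G.Pts => G.Glue x.1 y.1))

theorem genus_zero_pos : 0 < G.genus 0 := List.length_pos_iff.2 G.genera_ne_nil

theorem L_pos : 0 < G.L := by
  unfold L
  positivity

/-- The boundary circle of the square `[0, L]²`, parametrized by the model circle, times the fibre,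
parametrized by the model disc. -/
def attachE (z v : ℝ × ℝ) : E :=
  ((G.L / 2 * (z.1 + 1), G.L / 2 * (z.2 + 1)), 0, (v.1 + 2, v.2 + 2))

theorem attachE_mem (z : Circ) (v : Disc) : G.attachE z.1 v.1 ∈ G.region (.base 0) := by
  have hL := G.L_pos
  obtain ⟨⟨z1, z2⟩, hz⟩ := z
  obtain ⟨⟨v1, v2⟩, hv⟩ := v
  simp only [mem_sphere_zero_iff_norm, Prod.norm_mk, Real.norm_eq_abs] at hz
  simp only [mem_closedBall_zero_iff, Prod.norm_mk, Real.norm_eq_abs, sup_le_iff, abs_le] at hv
  have h1 : |z1| ≤ 1 := hz ▸ le_max_left _ _
  have h2 : |z2| ≤ 1 := hz ▸ le_max_right _ _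
  rw [abs_le] at h1 h2
  refine ⟨G.genus_zero_pos, ⟨⟨⟨?_, ?_⟩, ⟨?_, ?_⟩⟩, ?_⟩, rfl, ⟨⟨?_, ?_⟩, ⟨?_, ?_⟩⟩⟩
  any_goals simp only [attachE]; nlinarith
  rintro j hj ⟨⟨a1, a2⟩, ⟨a3, a4⟩⟩
  simp only [attachE] at a1 a2 a3 a4
  have hj' : (4 : ℝ) * j + 4 ≤ G.L := by
    have : j + 1 ≤ 1 + G.genera.length + G.genera.sum + 2 * G.plumbings.length := by
      have : j < G.genera.length := hj
      omega
    have h3 : ((j + 1 : ℕ) : ℝ) ≤ ((1 + G.genera.length + G.genera.sum + 2 * G.plumbings.length : ℕ) : ℝ) :=
      Nat.cast_le.2 this
    unfold L
    push_cast at h3 ⊢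
    linarith
  have hj0 : (0 : ℝ) ≤ j := Nat.cast_nonneg j
  rcases max_choice |z1| |z2| with h | h
  · rw [hz] at h
    rcases abs_eq (zero_le_one' ℝ) |>.1 h.symm with h | h <;> rw [h] at a1 a2 <;> linarith
  · rw [hz] at h
    rcases abs_eq (zero_le_one' ℝ) |>.1 h.symm with h | h <;> rw [h] at a3 a4 <;> linarith

/-- **The attaching region** of the capped grope: the framed boundary circle of the first stage. -/
def attach (x : Circ × Disc) : G.Thickening :=
  Quot.mk _ ⟨(.base 0, G.attachE x.1.1 x.2.1), G.attachE_mem x.1 x.2⟩

/-- The base point: a point of the attaching region. -/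
def basePt : G.Thickening := G.attach (⟨(1, 0), by simp [Prod.norm_mk]⟩, Disc.zero)

end CappedGrope

/-! ### Good groups -/

/-- **Good groups.**  For every disc-like capped grope of height `1.5` and every homomorphism `φ`
from the fundamental group of its thickening to `Γ` there is a framed immersed disc in the
thickening with the same framed boundary whose double point loops are mapped to the identity. -/
def Good (Γ : Type) [Group Γ] : Prop :=
  ∀ (G : CappedGrope) (φ : FundamentalGroup G.Thickening G.basePt →* Γ),
    ∃ D : FramedDisc G.Thickening G.attach, D.Kills φ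

end Vale.Agent.P215.H788
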