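import Vale.Agent.P215.H788.SGDefs

/-!
# P215: solvable groups belong to the class `SG`
-/

namespace Vale.Agent.P215.H788

open scoped Pointwise
open Filter Topology
open scoped commutatorElement

theorem mem_pow_comm {G : Type} [CommGroup G] (S : Finset G) (n : ℕ) (g : G)
    (hg : g ∈ (S : Set G) ^ n) : ∃ a : S → ℕ, (∀ s, a s ≤ n) ∧ g = ∏ s : S, (s : G) ^ a s := by
  classical
  induction n generalizing g with
  | zero =>
    rw [pow_zero, Set.mem_one] at hg
    exact ⟨fun _ => 0, fun _ => le_rfl, by simp [hg]⟩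
  | succ n ih =>
    rw [pow_succ] at hg
    obtain ⟨h, hh, s, hs, rfl⟩ := hg
    obtain ⟨a, ha, rfl⟩ := ih h hh
    refine ⟨Function.update a ⟨s, hs⟩ (a ⟨s, hs⟩ + 1), fun u => ?_, ?_⟩
    · by_cases hu : u = ⟨s, hs⟩
      · subst hu
        simpa using ha _
      · rw [Function.update_of_ne hu]
        exact (ha u).trans (Nat.le_succ n)
    · change (∏ u : S, (u : G) ^ a u) * s = _
      rw [← Finset.mul_prod_erase _ _ (Finset.mem_univ (⟨s, hs⟩ : S)),
        ← Finset.mul_prod_erase (a := (⟨s, hs⟩ : S)) _ _ (Finset.mem_univ _)]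
      rw [Function.update_self, pow_succ]
      have : ∀ u ∈ Finset.univ.erase (⟨s, hs⟩ : S),
          (u : G) ^ (Function.update a ⟨s, hs⟩ (a ⟨s, hs⟩ + 1)) u = (u : G) ^ a u := by
        intro u hu
        rw [Function.update_of_ne (Finset.ne_of_mem_erase hu)]
      rw [Finset.prod_congr rfl this]
      simp only
      rw [mul_right_comm]

theorem subexp_comm {G : Type} [CommGroup G] : SubexpGrowth G := by
  classical
  intro S hS c hc
  lift S to Finset G using hS
  let k := Fintype.card S
  have h1 : ∀ n : ℕ, (((S : Set G) ^ n).ncard : ℝ) ≤ ((n : ℝ) + 1) ^ k := by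
    intro n
    have h2 : (S : Set G) ^ n ⊆ Set.range fun a : S → Fin (n + 1) => ∏ s : S, (s : G) ^ (a s : ℕ) := by
      intro g hg
      obtain ⟨a, ha, rfl⟩ := mem_pow_comm S n g hg
      exact ⟨fun s => ⟨a s, Nat.lt_succ_of_le (ha s)⟩, rfl⟩
    have h3 := Set.ncard_le_ncard h2 (Set.finite_range _)
    have h4 : (Set.range fun a : S → Fin (n + 1) => ∏ s : S, (s : G) ^ (a s : ℕ)).ncard ≤
        (n + 1) ^ k := by
      rw [← Set.image_univ]
      refine (Set.ncard_image_le Set.finite_univ).trans ?_
      rw [Set.ncard_univ, Nat.card_eq_fintype_card]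
      simp [k]
    calc (((S : Set G) ^ n).ncard : ℝ) ≤ (((n + 1) ^ k : ℕ) : ℝ) := by exact_mod_cast h3.trans h4
      _ = ((n : ℝ) + 1) ^ k := by push_cast; ring
  have h5 : Tendsto (fun n : ℕ => ((n : ℝ) + 1) ^ k / c ^ n) atTop (𝓝 0) := by
    have h6 := tendsto_pow_const_div_const_pow_of_one_lt k hc
    have h7 := (h6.comp (tendsto_add_atTop_nat 1)).mul_const c
    rw [zero_mul] at h7
    refine h7.congr fun n => ?_
    have hc0 : c ≠ 0 := by positivity
    simp only [Function.comp_apply]
    push_cast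
    rw [pow_succ]
    field_simp
  obtain ⟨n₀, hn₀⟩ := (h5.eventually (gt_mem_nhds (zero_lt_one' ℝ))).exists_forall_of_atTop
  refine ⟨n₀, fun n hn => (h1 n).trans ?_⟩
  have h8 := hn₀ n hn
  have hc0 : 0 < c ^ n := by positivity
  rw [div_lt_one hc0] at h8
  exact h8.le

theorem SG.of_comm {G : Type} [Group G] (h : ∀ a b : G, a * b = b * a) : SG G := by
  let _ : CommGroup G := { ‹Group G› with mul_comm := h }
  exact SG.subexp subexp_comm

theorem SG.of_derivedSeries (n : ℕ) : ∀ (G : Type) [Group G], derivedSeries G n = ⊥ → SG G := by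
  induction n with
  | zero =>
    intro G _ h
    apply SG.of_comm
    intro a b
    have h1 : ∀ x : G, x = 1 := by
      intro x
      have : x ∈ derivedSeries G 0 := by
        rw [derivedSeries_zero]; exact Subgroup.mem_top x
      rwa [h, Subgroup.mem_bot] at this
    rw [h1 a, h1 b]
  | succ n ih =>
    intro G _ h
    refine SG.extension (derivedSeries G n) ?_ ?_
    · apply SG.of_comm
      rintro ⟨a, ha⟩ ⟨b, hb⟩
      apply Subtype.ext
      have h1 : ⁅a, b⁆ ∈ derivedSeries G (n + 1) := by
        rw [derivedSeries_succ]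
        exact Subgroup.commutator_mem_commutator ha hb
      rw [h, Subgroup.mem_bot, commutatorElement_eq_one_iff_mul_comm] at h1
      exact h1
    · apply ih
      rw [← map_derivedSeries_eq (QuotientGroup.mk'_surjective (derivedSeries G n)) n, eq_bot_iff]
      rintro _ ⟨a, ha, rfl⟩
      rw [Subgroup.mem_bot]
      exact (QuotientGroup.eq_one_iff a).2 ha

/-- Solvable groups belong to the class `SG`. -/
theorem SG.of_isSolvable {G : Type} [Group G] (h : Group.IsSolvable G) : SG G := by
  obtain ⟨n, hn⟩ := (Group.isSolvable_def G).1 h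
  exact SG.of_derivedSeries n G hn

end Vale.Agent.P215.H788
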