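import Vale.Agent.P215.H788.Distinct
import Vale.Agent.P215.H788.Solv

/-!
# P215: classes of groups given by countably many open conditions
-/

noncomputable section

namespace Vale.Agent.P215.H788

open Subgroup Cardinal

/-- The data of a class of groups: countably many finitely generated groups `P i`, and for each of
them a family `DD i` of finite subsets. -/
structure OpenData where
  /-- the index set -/
  I : Type
  /-- the groups -/
  P : I → Type
  [group : ∀ i, Group (P i)]
  /-- the finite sets -/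
  DD : ∀ i, Set (Set (P i))
  countable : Countable I
  fg : ∀ i, Group.FG (P i)
  finite : ∀ i, ∀ S ∈ DD i, S.Finite

attribute [instance] OpenData.group

namespace OpenData

variable (A : OpenData)

/-- The class of groups: every homomorphism from one of the groups `P i` kills one of the sets in
`DD i`. -/
def Class (Γ : Type) [Group Γ] : Prop :=
  ∀ (i : A.I) (φ : A.P i →* Γ), ∃ S ∈ A.DD i, ∀ s ∈ S, φ s = 1

theorem exists_gens (i : A.I) : ∃ (r : ℕ) (p : Fin r → A.P i), closure (Set.range p) = ⊤ := by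
  obtain ⟨S, hS, hfin⟩ := (Group.fg_iff (G := A.P i)).1 (A.fg i)
  obtain ⟨r, p, hp⟩ := hfin.fin_param
  exact ⟨r, p, by rw [hp.2, hS]⟩

/-- the number of generators -/
def r (i : A.I) : ℕ := (A.exists_gens i).choose

/-- the generators -/
def p (i : A.I) : Fin (A.r i) → A.P i := (A.exists_gens i).choose_spec.choose

theorem closure_p (i : A.I) : closure (Set.range (A.p i)) = ⊤ :=
  (A.exists_gens i).choose_spec.choose_spec

/-- the index set of the conditions on groups with `n` generators -/
def J (n : ℕ) : Type := Σ i : A.I, (Fin (A.r i) → FreeGroup (Fin n))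

instance (n : ℕ) : Countable (A.J n) := by
  have := A.countable
  have : Countable (FreeGroup (Fin n)) := by
    have : Function.Injective (FreeGroup.toWord (α := Fin n)) := FreeGroup.toWord_injective
    exact this.countable
  unfold J
  infer_instance

/-- the conditions -/
def C {n : ℕ} (j : A.J n) (Γ : Type) [Group Γ] (g : Fin n → Γ) : Prop :=
  Cond (A.p j.1) (A.DD j.1) j.2 Γ g

theorem C_open {n : ℕ} (j : A.J n) (Γ : Type) [Group Γ] (g : Fin n → Γ) (h : A.C j Γ g) :
    ∃ R : ℕ, ∀ (Γ' : Type) [Group Γ'] (g' : Fin n → Γ'), Agree R g g' → A.C j Γ' g' :=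
  cond_open _ (A.closure_p j.1) _ (A.finite j.1) _ Γ g h

theorem class_iff {n : ℕ} (Γ : Type) [Group Γ] (g : Fin n → Γ)
    (hg : closure (Set.range g) = ⊤) : A.Class Γ ↔ ∀ j : A.J n, A.C j Γ g := by
  constructor
  · intro h j φ _
    exact h j.1 φ
  · intro h i φ
    have hsurj : Function.Surjective (FreeGroup.lift g) := by
      rw [← MonoidHom.range_eq_top, FreeGroup.range_lift_eq_closure, hg]
    choose f hf using fun k => hsurj (φ (A.p i k))
    exact h ⟨i, f⟩ φ fun k => (hf k).symm

/-- The class contains continuum many pairwise non-isomorphic groups which are generated by two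
elements and do not belong to `SG`, if it contains the solvable groups. -/
theorem exists_family (hs : ∀ (Γ : Type) [Group Γ], Group.FG Γ → Group.IsSolvable Γ → A.Class Γ) :
    ∃ (Γ : (ℕ → Bool) → Type) (_ : ∀ s, Group (Γ s)),
      (∀ s, ∃ g : Fin 2 → Γ s, closure (Set.range g) = ⊤) ∧ (∀ s, A.Class (Γ s)) ∧
      (∀ s, ¬ SG (Γ s)) ∧ ∀ s s', s ≠ s' → IsEmpty (Γ s ≃* Γ s') := by
  have hfg : ∀ x, Group.FG (GW x) := fun x =>
    Group.fg_iff.2 ⟨Set.range (gens x), closure_gens x, Set.finite_range _⟩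
  obtain ⟨F, hF, hFC⟩ := diagonal (I := A.J 2) (fun j Γ _ g => A.C j Γ g)
    (fun j Γ _ g h => A.C_open j Γ g h) (fun j z hz => by
      obtain ⟨k, hk⟩ := hz
      exact (A.class_iff (GW z) (gens z) (closure_gens z)).1
        (hs _ (hfg z) (GW_solvable k z hk)) j)
  let st : Setoid (ℕ → Bool) :=
    { r := fun s s' => Nonempty (GW (F s) ≃* GW (F s'))
      iseqv := ⟨fun _ => ⟨MulEquiv.refl _⟩, fun ⟨e⟩ => ⟨e.symm⟩, fun ⟨e⟩ ⟨e'⟩ => ⟨e.trans e'⟩⟩ }
  have hcl : ∀ c : Quotient st, #((Quotient.mk st) ⁻¹' {c}) ≤ ℵ₀ := by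
    intro c
    induction c using Quotient.inductionOn with
    | h s =>
      rw [Cardinal.mk_le_aleph0_iff, Set.countable_coe_iff]
      refine Set.Countable.mono ?_ ((countable_iso (F s)).preimage hF)
      intro s' hs'
      exact ⟨(hFC s').1, Quotient.exact hs'⟩
  have hQ : #(ℕ → Bool) ≤ #(Quotient st) := by
    have h1 := Cardinal.mk_le_mk_mul_of_mk_preimage_le (Quotient.mk st) hcl
    have h2 : ℵ₀ < #(ℕ → Bool) := by
      rw [← Cardinal.power_def, Cardinal.mk_bool, Cardinal.mk_nat]
      exact Cardinal.cantor _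
    by_contra h3
    rw [not_le] at h3
    have h4 : #(Quotient st) * ℵ₀ < #(ℕ → Bool) :=
      Cardinal.mul_lt_of_lt h2.le h3 h2
    exact absurd h1 (not_le.2 h4)
  obtain ⟨j⟩ := hQ
  refine ⟨fun s => GW (F (Quotient.out (j s))), fun s => inferInstance,
    fun s => ⟨gens _, closure_gens _⟩, fun s => ?_, fun s => not_SG _ (hFC _).1, ?_⟩
  · exact (A.class_iff _ _ (closure_gens _)).2 (hFC _).2
  · intro s s' hss
    refine ⟨fun e => hss (j.injective ?_)⟩
    rw [← Quotient.out_eq (j s), ← Quotient.out_eq (j s')]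
    exact Quotient.sound ⟨e⟩

/-- **The class is different from `SG`.** -/
theorem exists_ne_SG : ∃ (Γ : Type) (_ : Group Γ), Group.FG Γ ∧ ¬ (A.Class Γ ↔ SG Γ) := by
  by_contra hcon
  push Not at hcon
  have hs : ∀ (Γ : Type) [Group Γ], Group.FG Γ → Group.IsSolvable Γ → A.Class Γ :=
    fun Γ _ hfg hsol => (hcon Γ _ hfg).2 (SG.of_isSolvable hsol)
  obtain ⟨Γ, _, h1, h2, h3, -⟩ := A.exists_family hs
  let s : ℕ → Bool := fun _ => false
  obtain ⟨g, hg⟩ := h1 s
  exact h3 s ((hcon (Γ s) _ (Group.fg_iff.2 ⟨Set.range g, hg, Set.finite_range _⟩)).1 (h2 s))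

end OpenData

end Vale.Agent.P215.H788
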