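import Vale.Agent.P215.H788.NotSG

/-!
# P215: solvability of `GW x` for `x` with a zero, and the balls of the groups `GW x`
-/

noncomputable section

namespace Vale.Agent.P215.H788

open Subgroup
open scoped commutatorElement Pointwise

/-! ### Solvability -/

theorem isSolvable_pi {ι H : Type} [Group H] [hH : Group.IsSolvable H] : Group.IsSolvable (ι → H) := by
  obtain ⟨n, hn⟩ := (Group.isSolvable_def H).1 hH
  refine (Group.isSolvable_def _).2 ⟨n, ?_⟩
  rw [eq_bot_iff]
  intro f hf
  rw [mem_bot]
  funext i
  have h1 : (derivedSeries (ι → H) n).map (Pi.evalMonoidHom (fun _ => H) i) ≤ derivedSeries H n :=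
    map_derivedSeries_le_derivedSeries _ n
  have h2 := h1 ⟨f, hf, rfl⟩
  rw [hn, mem_bot] at h2
  exact h2

/-- the elements with sections in `H`. -/
def WH (H : Subgroup P) : Subgroup (Wr P) where
  carrier := {g | ∀ q, g.s q ∈ H}
  one_mem' _ := one_mem H
  mul_mem' ha hb _ := mul_mem (ha _) (hb _)
  inv_mem' ha _ := inv_mem (ha _)

theorem isSolvable_of_sections (K : Subgroup (Wr P)) (H : Subgroup P) [Group.IsSolvable H]
    (hK : K ≤ WH H) : Group.IsSolvable K := by
  let g : K →* Multiplicative ℤ := Wr.eHom.comp K.subtype
  have h1 : Group.IsSolvable g.ker := by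
    let φ : g.ker →* (ℤ → H) :=
      { toFun := fun u q => ⟨u.1.1.s q, hK u.1.2 q⟩
        map_one' := rfl
        map_mul' := by
          intro u v
          funext q
          have hu : u.1.1.e = 0 := Multiplicative.ofAdd.injective u.2
          exact Subtype.ext (by simp [hu]) }
    have := isSolvable_pi (ι := ℤ) (H := H)
    refine Group.isSolvable_of_isSolvable_injective (f := φ) ?_
    intro u v huv
    have hu : u.1.1.e = 0 := Multiplicative.ofAdd.injective u.2
    have hv : v.1.1.e = 0 := Multiplicative.ofAdd.injective v.2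
    refine Subtype.ext (Subtype.ext (Wr.ext (funext fun q => ?_) (hu.trans hv.symm)))
    exact congrArg Subtype.val (congrFun huv q)
  exact Group.isSolvable_of_ker_le_range g.ker.subtype g (by simp)

theorem GW_solvable (k : ℕ) : ∀ x : ℕ → ℕ, x k = 0 → Group.IsSolvable (GW x) := by
  induction k with
  | zero =>
    intro x hx
    have : Group.IsSolvable (zpowers t) := by
      refine Group.isSolvable_of_comm ?_
      rintro ⟨_, m, rfl⟩ ⟨_, n, rfl⟩
      exact Subtype.ext (zpow_mul_comm t m n)
    refine isSolvable_of_sections _ (zpowers t) ?_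
    rw [GW, closure_le]
    rintro _ (rfl | rfl) q
    · exact one_mem _
    · rw [bW_s, hx]
      by_cases h : q = 0
      · rw [if_pos h]
        exact mem_zpowers t
      · rw [if_neg h, if_neg (by simpa using h)]
        exact one_mem _
  | succ k ih =>
    intro x hx
    have h1 : Group.IsSolvable (GW (tl x)) := ih (tl x) hx
    have h2 : Group.IsSolvable (GP (tl x)) :=
      Group.isSolvable_of_surjective (f := ((GW (tl x)).equivMapOfInjective iota iota_injective).toMonoidHom)
        ((GW (tl x)).equivMapOfInjective iota iota_injective).surjective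
    refine isSolvable_of_sections _ (GP (tl x)) ?_
    rw [GW, closure_le]
    rintro _ (rfl | rfl) q
    · exact one_mem _
    · rw [bW_s]
      split_ifs
      · exact ⟨tW, tW_mem _, rfl⟩
      · exact ⟨bW (tl x), bW_mem _, iota_bW _⟩
      · exact one_mem _

/-! ### Balls -/

/-- the sign of a letter. -/
def sgn (ε : Bool) : ℤ := cond ε 1 (-1)

/-- the total exponent of `t` in a word. -/
def eL : List Letter → ℤ
  | [] => 0
  | (⟨0, _⟩, ε) :: w => sgn ε + eL w
  | (⟨_ + 1, _⟩, _) :: w => eL w

theorem evW_e (x : ℕ → ℕ) (w : List Letter) : (evW x w).e = eL w := by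
  induction w with
  | nil => rfl
  | cons a w ih =>
    obtain ⟨⟨i, hi⟩, ε⟩ := a
    rw [evW_cons, Wr.mul_e, ih]
    match i, hi with
    | 0, hi => cases ε <;> simp [evl, gen, eL, sgn]
    | 1, hi => cases ε <;> simp [evl, gen, eL]

/-- the total exponent of the letters `b` which are read at the position `0`. -/
def occ : List Letter → ℤ → ℤ
  | [], _ => 0
  | (⟨0, _⟩, ε) :: w, q => occ w (q - sgn ε)
  | (⟨_ + 1, _⟩, ε) :: w, q => (if q = 0 then sgn ε else 0) + occ w q

theorem sgn_cases (ε : Bool) : sgn ε = 1 ∨ sgn ε = -1 := by cases ε <;> simp [sgn]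

theorem occ_far (w : List Letter) (q : ℤ) (hq : (w.length : ℤ) < |q|) : occ w q = 0 := by
  induction w generalizing q with
  | nil => rfl
  | cons a w ih =>
    obtain ⟨⟨i, hi⟩, ε⟩ := a
    simp only [List.length_cons, Nat.cast_add, Nat.cast_one] at hq
    match i, hi with
    | 0, hi =>
      simp only [occ]
      apply ih
      have h1 : |sgn ε| = 1 := by cases ε <;> simp [sgn]
      have h2 := abs_sub_abs_le_abs_sub q (sgn ε)
      rw [h1] at h2
      linarith
    | 1, hi =>
      have h0 : q ≠ 0 := by
        rintro rfl
        rw [abs_zero] at hq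
        have := Int.natCast_nonneg w.length
        omega
      simp only [occ, if_neg h0, zero_add]
      exact ih q (by linarith)

theorem evW_secL (y : ℕ → ℕ) (M : ℕ) (w : List Letter) (hM : M = 0 ∨ w.length < M) (q : ℤ) :
    evW y (secL M w q) = tW ^ occ w q * bW y ^ (if M = 0 then 0 else occ w (q - M)) := by
  induction w generalizing q with
  | nil => simp [secL, occ]
  | cons a w ih =>
    have hM' : M = 0 ∨ w.length < M := by
      rcases hM with h | h
      · exact Or.inl h
      · right
        simp only [List.length_cons] at h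
        omega
    have ih := ih hM'
    obtain ⟨⟨i, hi⟩, ε⟩ := a
    match i, hi with
    | 0, hi =>
      simp only [secL, occ]
      rw [ih]
      have h1 : q - sgn ε - M = q - M - sgn ε := by ring
      change tW ^ occ w (q - sgn ε) * bW y ^ (if M = 0 then 0 else occ w (q - sgn ε - M)) = _
      rw [h1]
    | 1, hi =>
      simp only [secL, occ, evW_append]
      rw [ih]
      by_cases h : q = 0
      · subst h
        have h2 : evW y [((0 : Fin 2), ε)] = tW ^ sgn ε := by
          cases ε <;> simp [evl, gen, sgn]
        have h3 : (if M = 0 then (0 : ℤ) else (if (0 : ℤ) - M = 0 then sgn ε else 0) + occ w (0 - M)) =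
            if M = 0 then 0 else occ w (0 - M) := by
          by_cases hM0 : M = 0
          · simp [hM0]
          · have : (0 : ℤ) - M ≠ 0 := by omega
            rw [if_neg hM0, if_neg hM0, if_neg this, zero_add]
        simp only [if_true]
        rw [h2, h3, zpow_add, mul_assoc]
      · by_cases h' : q = M
        · subst h'
          have hM0 : M ≠ 0 := fun hh => h (by rw [hh]; rfl)
          have h2 : evW y [((1 : Fin 2), ε)] = bW y ^ sgn ε := by
            cases ε <;> simp [evl, gen, sgn]
          have h4 : occ w (M : ℤ) = 0 := by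
            apply occ_far
            rw [Nat.abs_cast]
            rcases hM' with h5 | h5
            · exact absurd h5 hM0
            · exact_mod_cast h5
          simp only [if_neg h, if_neg hM0, sub_self, if_true]
          rw [h2, h4, add_zero, zpow_zero, one_mul, one_mul, zpow_add]
        · have h6 : (if M = 0 then (0 : ℤ) else (if q - M = 0 then sgn ε else 0) + occ w (q - M)) =
              if M = 0 then 0 else occ w (q - M) := by
            have : q - M ≠ 0 := sub_ne_zero.2 h'
            rw [if_neg this, zero_add]
          simp only [if_neg h, if_neg h']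
          rw [h6, zero_add, evW_nil, one_mul]

theorem evW_eq_one (x : ℕ → ℕ) (w : List Letter) :
    evW x w = 1 ↔ eL w = 0 ∧ ∀ q, evW (tl x) (secL (x 0) w q) = 1 := by
  constructor
  · intro h
    refine ⟨by rw [← evW_e x, h]; rfl, fun q => iota_injective ?_⟩
    rw [← sec_spec, h, map_one]
    rfl
  · rintro ⟨h1, h2⟩
    refine Wr.ext (funext fun q => ?_) (by rw [evW_e, h1]; rfl)
    rw [sec_spec, h2, map_one]
    rfl

theorem evW_eq_one_of_large (x : ℕ → ℕ) (w : List Letter) (h : x 0 = 0 ∨ w.length < x 0) :
    evW x w = 1 ↔ eL w = 0 ∧ ∀ q, occ w q = 0 := by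
  rw [evW_eq_one]
  refine and_congr_right fun _ => ?_
  constructor
  · intro h1 q
    have h2 := h1 q
    rw [evW_secL _ _ _ h] at h2
    have h3 := congrArg Wr.e h2
    rw [Wr.mul_e, Wr.pow_e, bW_zpow_e, tW_e, Wr.one_e] at h3
    simpa using h3
  · intro h1 q
    rw [evW_secL _ _ _ h, h1 q, h1 (q - x 0)]
    simp

/-- **The ball of radius `R` of `GW x` depends only on the first entries of `x`**, up to an entry
which is larger than `R` or `0`. -/
theorem ball (R k : ℕ) : ∀ x y : ℕ → ℕ, (∀ i < k, x i = y i) → (x k = 0 ∨ R < x k) →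
    (y k = 0 ∨ R < y k) → ∀ w : List Letter, w.length ≤ R → (evW x w = 1 ↔ evW y w = 1) := by
  induction k with
  | zero =>
    intro x y _ hx hy w hw
    rw [evW_eq_one_of_large x w (hx.imp_right fun h => lt_of_le_of_lt hw h),
      evW_eq_one_of_large y w (hy.imp_right fun h => lt_of_le_of_lt hw h)]
  | succ k ih =>
    intro x y h hx hy w hw
    rw [evW_eq_one, evW_eq_one, h 0 (Nat.succ_pos k)]
    refine and_congr_right fun _ => forall_congr' fun q => ?_
    exact ih (tl x) (tl y) (fun i hi => h (i + 1) (by omega)) hx hy _
      ((secL_length _ _ _).trans hw)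

end Vale.Agent.P215.H788
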