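import Mathlib

/-!
# P215: groups of subexponential growth and the class `SG`
-/

namespace Vale.Agent.P215.H788

open scoped Pointwise

/-- `G` has **subexponential growth**: for every finite subset `S` of `G` the number of elements
which are products of `n` elements of `S` is at most `c ^ n` for all large `n`, for every `c > 1`.
(For a group which is not finitely generated this means that all its finitely generated subgroups
have subexponential growth.) -/
def SubexpGrowth (G : Type) [Group G] : Prop :=
  ∀ S : Set G, S.Finite → ∀ c : ℝ, 1 < c → ∃ n₀ : ℕ, ∀ n ≥ n₀, ((S ^ n).ncard : ℝ) ≤ c ^ n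

/-- The class `SG`: the smallest class of groups which contains the groups of subexponential growth
and which is closed under isomorphism, subgroups, quotients, extensions and directed unions (hence
also under directed colimits, see `SG.colimit`). -/
inductive SG : (G : Type) → [Group G] → Prop
  /-- groups of subexponential growth -/
  | subexp {G : Type} [Group G] : SubexpGrowth G → SG G
  /-- isomorphic groups -/
  | equiv {G H : Type} [Group G] [Group H] : (G ≃* H) → SG G → SG H
  /-- subgroups -/
  | subgroup {G : Type} [Group G] (H : Subgroup G) : SG G → SG H
  /-- quotients -/
  | quotient {G : Type} [Group G] (N : Subgroup G) [N.Normal] : SG G → SG (G ⧸ N)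
  /-- extensions -/
  | extension {G : Type} [Group G] (N : Subgroup G) [N.Normal] : SG N → SG (G ⧸ N) → SG G
  /-- directed unions -/
  | directedUnion {G : Type} [Group G] {ι : Type} [Nonempty ι] (S : ι → Subgroup G)
      (dir : Directed (· ≤ ·) S) (union : ∀ g : G, ∃ i, g ∈ S i) : (∀ i, SG (S i)) → SG G

/-- The class `SG` is closed under directed colimits: it contains every group `G` with homomorphisms
`f i : A i → G` from groups in `SG` whose images form a directed family with union `G`. -/
theorem SG.colimit {G : Type} [Group G] {ι : Type} [Nonempty ι] (A : ι → Type)
    [∀ i, Group (A i)] (f : ∀ i, A i →* G) (dir : Directed (· ≤ ·) fun i => (f i).range)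
    (union : ∀ g : G, ∃ i, g ∈ (f i).range) (h : ∀ i, SG (A i)) : SG G := by
  refine SG.directedUnion (fun i => (f i).range) dir union fun i => ?_
  exact SG.equiv (QuotientGroup.quotientKerEquivRange (f i)) (SG.quotient _ (h i))

end Vale.Agent.P215.H788
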