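import Vale.Agent.P215.H788.Groups
import Vale.Agent.P215.H788.SGDefs

/-!
# P215: the groups `GW x` are not in the class `SG`
-/

noncomputable section

namespace Vale.Agent.P215.H788

open Subgroup
open scoped commutatorElement Pointwise

/-- `A` is a subquotient of `B`. -/
def SubQ (A B : Type) [Group A] [Group B] : Prop :=
  ∃ (T : Type) (_ : Group T) (i : T →* B) (f : T →* A), Function.Injective i ∧
    Function.Surjective f

theorem SubQ.refl (A : Type) [Group A] : SubQ A A :=
  ⟨A, inferInstance, MonoidHom.id A, MonoidHom.id A, fun _ _ h => h, fun a => ⟨a, rfl⟩⟩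

theorem SubQ.of_injective {A B : Type} [Group A] [Group B] (i : A →* B)
    (hi : Function.Injective i) : SubQ A B :=
  ⟨A, inferInstance, i, MonoidHom.id A, hi, fun a => ⟨a, rfl⟩⟩

theorem SubQ.of_surjective {A B : Type} [Group A] [Group B] (f : B →* A)
    (hf : Function.Surjective f) : SubQ A B :=
  ⟨B, inferInstance, MonoidHom.id B, f, fun _ _ h => h, hf⟩

theorem SubQ.trans {A B C : Type} [Group A] [Group B] [Group C] (h1 : SubQ A B) (h2 : SubQ B C) :
    SubQ A C := by
  obtain ⟨T, _, i, f, hi, hf⟩ := h1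
  obtain ⟨T', _, i', f', hi', hf'⟩ := h2
  let R : Subgroup T' := i.range.comap f'
  let g : R →* i.range := (f'.comp R.subtype).codRestrict i.range fun r => r.2
  let e : T ≃* i.range := MonoidHom.ofInjective hi
  refine ⟨R, inferInstance, i'.comp R.subtype, f.comp (e.symm.toMonoidHom.comp g), ?_, ?_⟩
  · exact hi'.comp R.subtype_injective
  · intro a
    obtain ⟨u, rfl⟩ := hf a
    obtain ⟨u', hu'⟩ := hf' (i u)
    refine ⟨⟨u', ⟨u, hu'.symm⟩⟩, ?_⟩
    simp only [MonoidHom.comp_apply]
    congr 1
    change e.symm _ = u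
    rw [MulEquiv.symm_apply_eq]
    exact Subtype.ext hu'

/-- A group is bad if one of the groups `GW y`, `y` without zeros, is a subquotient of it. -/
def Bad (K : Type) [Group K] : Prop := ∃ y : ℕ → ℕ, (∀ n, y n ≠ 0) ∧ SubQ (GW y) K

theorem Bad.mono {A B : Type} [Group A] [Group B] (h : Bad A) (h2 : SubQ A B) : Bad B := by
  obtain ⟨y, hy, h⟩ := h
  exact ⟨y, hy, h.trans h2⟩

theorem tl_ne {x : ℕ → ℕ} (hx : ∀ n, x n ≠ 0) : ∀ n, tl x n ≠ 0 := fun n => hx (n + 1)

/-- if the image of a subgroup under the section homomorphism contains `Q`, then `Q` is a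
subquotient of it. -/
theorem sq_of_le_Im {Q : Subgroup P} {K : Subgroup (Wr P)} {p : ℤ} (h : Q ≤ Im p K) : SubQ Q K := by
  let R : Subgroup (Wr.base P) := K.subgroupOf (Wr.base P) ⊓ Q.comap (Wr.sec p)
  refine ⟨R, inferInstance,
    ((Wr.base P).subtype.comp R.subtype).codRestrict K fun r => r.2.1,
    ((Wr.sec p).comp R.subtype).codRestrict Q fun r => r.2.2, ?_, ?_⟩
  · intro a b hab
    have := congrArg (fun u : K => (u : Wr P)) hab
    exact Subtype.ext (Subtype.ext this)
  · rintro ⟨z, hz⟩
    obtain ⟨f, hf, hfe, hfz⟩ := mem_Im.1 (h hz)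
    exact ⟨⟨⟨f, hfe⟩, ⟨hf, by
      change f.s p ∈ Q
      rwa [hfz]⟩⟩, Subtype.ext hfz⟩

theorem sq_map_iota (K : Subgroup (Wr P)) : SubQ K (K.map iota) :=
  SubQ.of_surjective (K.equivMapOfInjective iota iota_injective).symm.toMonoidHom
    (K.equivMapOfInjective iota iota_injective).symm.surjective

theorem sq_D (d : ℕ) (x : ℕ → ℕ) (hx : ∀ n, x n ≠ 0) : Bad (D d x) := by
  induction d generalizing x with
  | zero => exact ⟨x, hx, SubQ.refl _⟩
  | succ d ih =>
    exact (ih (tl x) (tl_ne hx)).mono ((sq_map_iota _).trans (sq_of_le_Im (le_Im x (hx 0) d)))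

theorem bad_shift (x : ℕ → ℕ) (hx : ∀ n, x n ≠ 0) (d : ℕ) (g : Wr P) (hg : g.e ≠ 0)
    (K : Subgroup (Wr P)) (hK : ∀ h ∈ D d x, ⁅g, h⁆ ∈ K) : Bad K := by
  have h1 : (D (d + 1) (tl x)).map iota ≤ Im 0 K := by
    intro z hz
    have h2 := hK _ (map_single_le x (hx 0) 0 d ⟨z, hz, rfl⟩)
    rw [← inv_inv z]
    refine inv_mem (mem_Im.2 ⟨_, h2, ?_, ?_⟩)
    · simp [commutatorElement_def]
    · rw [commutatorElement_def, conj_single]
      have h3 : (0 : ℤ) ≠ g.e := hg.symm
      simp [h3]
  exact (sq_D (d + 1) (tl x) (tl_ne hx)).mono ((sq_map_iota _).trans (sq_of_le_Im h1))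

/-! ### Words -/

/-- Letters: `(0, ±)` for `t`, `(1, ±)` for `b`. -/
abbrev Letter : Type := Fin 2 × Bool

/-- The generators. -/
def gen (x : ℕ → ℕ) (i : Fin 2) : Wr P := if i = 0 then tW else bW x

/-- The value of a letter. -/
def evl (x : ℕ → ℕ) (a : Letter) : Wr P := cond a.2 (gen x a.1) (gen x a.1)⁻¹

/-- The value of a word. -/
def evW (x : ℕ → ℕ) (w : List Letter) : Wr P := (w.map (evl x)).prod

@[simp] theorem evW_nil (x : ℕ → ℕ) : evW x [] = 1 := rfl
@[simp] theorem evW_cons (x : ℕ → ℕ) (a : Letter) (w : List Letter) :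
    evW x (a :: w) = evl x a * evW x w := by simp [evW]
theorem evW_append (x : ℕ → ℕ) (w v : List Letter) : evW x (w ++ v) = evW x w * evW x v := by
  simp [evW]

theorem evW_mem (x : ℕ → ℕ) (w : List Letter) : evW x w ∈ GW x := by
  have hg : ∀ i, gen x i ∈ GW x := by
    intro i
    unfold gen
    split_ifs
    · exact tW_mem x
    · exact bW_mem x
  induction w with
  | nil => exact one_mem _
  | cons a w ih =>
    rw [evW_cons]
    refine mul_mem ?_ ih
    unfold evl
    cases a.2
    · exact inv_mem (hg _)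
    · exact hg _

/-- Every element of `GW x` is the value of a word. -/
theorem exists_word {x : ℕ → ℕ} {g : Wr P} (hg : g ∈ GW x) : ∃ w, evW x w = g := by
  have hg' : g ∈ (GW x).toSubmonoid := hg
  rw [GW, closure_toSubmonoid] at hg'
  obtain ⟨l, hl, rfl⟩ := Submonoid.exists_list_of_mem_closure hg'
  clear hg hg'
  induction l with
  | nil => exact ⟨[], rfl⟩
  | cons a l ih =>
    obtain ⟨w, hw⟩ := ih fun y hy => hl y (List.mem_cons_of_mem a hy)
    have ha : ∃ c : Letter, evl x c = a := by
      rcases hl a List.mem_cons_self with h | h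
      · rcases h with rfl | rfl
        · exact ⟨(0, true), by simp [evl, gen]⟩
        · exact ⟨(1, true), by simp [evl, gen]⟩
      · rcases h with h | h
        · exact ⟨(0, false), by simp [evl, gen, ← h]⟩
        · have h : a⁻¹ = bW x := h
          exact ⟨(1, false), by simp [evl, gen, ← h]⟩
    obtain ⟨c, hc⟩ := ha
    exact ⟨c :: w, by rw [evW_cons, hc, hw, List.prod_cons]⟩

/-- The symbolic section of a word. -/
def secL (M : ℕ) : List Letter → ℤ → List Letter
  | [], _ => []
  | (⟨0, _⟩, ε) :: w, q => secL M w (q - cond ε 1 (-1))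
  | (⟨_ + 1, _⟩, ε) :: w, q =>
      (if q = 0 then [(0, ε)] else if q = M then [(1, ε)] else []) ++ secL M w q

@[simp] theorem bW_s (x : ℕ → ℕ) (q : ℤ) :
    (bW x).s q = if q = 0 then t else if q = x 0 then b (tl x) else 1 := rfl
@[simp] theorem bW_e (x : ℕ → ℕ) : (bW x).e = 0 := rfl
@[simp] theorem tW_s (q : ℤ) : tW.s q = 1 := rfl
@[simp] theorem tW_e : tW.e = 1 := rfl

theorem sec_spec (x : ℕ → ℕ) (w : List Letter) (q : ℤ) :
    (evW x w).s q = iota (evW (tl x) (secL (x 0) w q)) := by
  induction w generalizing q with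
  | nil => simp [secL]
  | cons a w ih =>
    obtain ⟨⟨i, hi⟩, ε⟩ := a
    rw [evW_cons, Wr.mul_s, ih]
    match i, hi with
    | 0, hi =>
      cases ε
      · simp [evl, gen, secL]
      · simp [evl, gen, secL]
    | 1, hi =>
      simp only [secL, evW_append, map_mul]
      cases ε
      · by_cases h : q = 0
        · subst h
          simp [evl, gen, iota_tW]
        · by_cases h' : q = x 0
          · subst h'
            have h0 : x 0 ≠ 0 := fun hh => h (by rw [hh]; rfl)
            simp [evl, gen, iota_bW, h0]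
          · simp [evl, gen, h, h']
      · by_cases h : q = 0
        · subst h
          simp [evl, gen, iota_tW]
        · by_cases h' : q = x 0
          · subst h'
            have h0 : x 0 ≠ 0 := fun hh => h (by rw [hh]; rfl)
            simp [evl, gen, iota_bW, h0]
          · simp [evl, gen, h, h']

theorem secL_length (M : ℕ) (w : List Letter) (q : ℤ) : (secL M w q).length ≤ w.length := by
  induction w generalizing q with
  | nil => simp [secL]
  | cons a w ih =>
    obtain ⟨⟨i, hi⟩, ε⟩ := a
    match i, hi with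
    | 0, hi =>
      have := ih (q - cond ε 1 (-1))
      simp only [secL, List.length_cons]
      omega
    | 1, hi =>
      have := ih q
      simp only [secL, List.length_append, List.length_cons]
      split_ifs <;> simp <;> omega

theorem secL_length_lt (M : ℕ) (w : List Letter) (q : ℤ) (h : ∃ a ∈ w, a.1 = 0) :
    (secL M w q).length < w.length := by
  induction w generalizing q with
  | nil => simp at h
  | cons a w ih =>
    obtain ⟨⟨i, hi⟩, ε⟩ := a
    match i, hi with
    | 0, hi =>
      have := secL_length M w (q - cond ε 1 (-1))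
      simp only [secL, List.length_cons]
      omega
    | 1, hi =>
      have h' : ∃ a ∈ w, a.1 = 0 := by
        obtain ⟨a, ha, ha0⟩ := h
        rcases List.mem_cons.1 ha with rfl | ha
        · exact absurd (congrArg Fin.val ha0) (by simp)
        · exact ⟨a, ha, ha0⟩
      have := ih q h'
      simp only [secL, List.length_append, List.length_cons]
      split_ifs <;> simp <;> omega

/-- a word in the letter `b` is a power of `b`. -/
theorem evW_b (x : ℕ → ℕ) (w : List Letter) (h : ∀ a ∈ w, a.1 ≠ 0) :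
    ∃ j : ℤ, evW x w = bW x ^ j := by
  induction w with
  | nil => exact ⟨0, by simp⟩
  | cons a w ih =>
    obtain ⟨j, hj⟩ := ih fun a ha => h a (List.mem_cons_of_mem _ ha)
    have ha := h a List.mem_cons_self
    rw [evW_cons, hj]
    obtain ⟨i, ε⟩ := a
    cases ε
    · refine ⟨-1 + j, ?_⟩
      rw [zpow_add, zpow_neg_one]
      simp only at ha
      simp [evl, gen, ha]
    · refine ⟨1 + j, ?_⟩
      rw [zpow_add, zpow_one]
      simp only at ha
      simp [evl, gen, ha]

theorem bW_zpow_s (x : ℕ → ℕ) (j : ℤ) : (bW x ^ j).s 0 = iota (tW ^ j) := by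
  have h : (bW x ^ j).s 0 = Wr.sec 0 (⟨bW x, rfl⟩ ^ j : Wr.base P) := rfl
  rw [h, map_zpow, map_zpow, iota_tW]
  congr 1

theorem bW_zpow_e (x : ℕ → ℕ) (j : ℤ) : (bW x ^ j).e = 0 := by
  rw [Wr.pow_e, bW_e, mul_zero]

theorem bad_word (n : ℕ) : ∀ (x : ℕ → ℕ) (_ : ∀ n, x n ≠ 0) (d : ℕ) (w : List Letter)
    (_ : w.length ≤ n) (_ : evW x w ≠ 1) (K : Subgroup (Wr P))
    (_ : ∀ h ∈ D d x, ⁅evW x w, h⁆ ∈ K), Bad K := by
  induction n with
  | zero =>
    intro x hx d w hw h1
    have : w = [] := List.length_eq_zero_iff.1 (Nat.le_zero.1 hw)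
    subst this
    exact absurd (evW_nil x) h1
  | succ n ih =>
    intro x hx d w hw h1 K hK
    by_cases he : (evW x w).e = 0
    · -- the general step
      have step : ∀ p : ℤ, ∀ g₁ : Wr P, (evW x w).s p = iota g₁ →
          ∀ h ∈ D (d + 1) (tl x), ⁅g₁, h⁆ ∈ K.comap ((Wr.single p).comp iota) := by
        intro p g₁ hg₁ h hh
        have h2 := hK _ (map_single_le x (hx 0) p d ⟨iota h, ⟨h, hh, rfl⟩, rfl⟩)
        rw [mem_comap]
        convert h2 using 1
        rw [map_commutatorElement, MonoidHom.comp_apply, MonoidHom.comp_apply, ← hg₁,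
          commutatorElement_def, commutatorElement_def]
        rw [conj_single (evW x w), he, add_zero]
        simp only [map_mul, map_inv]
      have transfer : ∀ p : ℤ, Bad (K.comap ((Wr.single p).comp iota)) → Bad K := by
        intro p hb
        refine hb.mono (SubQ.of_injective
          ((((Wr.single p).comp iota).comp (Subgroup.subtype _)).codRestrict K fun r => r.2) ?_)
        intro a c hac
        have := congrArg (fun u : K => (u : Wr P)) hac
        exact Subtype.ext (iota_injective (Wr.single_injective p this))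
      by_cases hb : ∀ a ∈ w, a.1 ≠ 0
      · obtain ⟨j, hj⟩ := evW_b x w hb
        have hj0 : j ≠ 0 := by
          rintro rfl
          exact h1 (by rw [hj, zpow_zero])
        refine transfer 0 (bad_shift (tl x) (tl_ne hx) (d + 1) (tW ^ j) ?_ _
          (step 0 _ (by rw [hj, bW_zpow_s])))
        rw [Wr.pow_e, tW_e, mul_one]
        exact hj0
      · push Not at hb
        have hs : ∃ p, (evW x w).s p ≠ 1 := by
          by_contra hcon
          push Not at hcon
          exact h1 (Wr.ext (funext hcon) he)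
        obtain ⟨p, hp⟩ := hs
        have h3 := secL_length_lt (x 0) w p hb
        refine transfer p (ih (tl x) (tl_ne hx) (d + 1) (secL (x 0) w p) (by omega) ?_ _
          (step p _ (sec_spec x w p)))
        intro h4
        rw [sec_spec, h4, map_one] at hp
        exact hp rfl
    · exact bad_shift x hx d _ he K hK

/-- **Every nontrivial normal subgroup of `GW x` is bad.** -/
theorem bad_of_normal (x : ℕ → ℕ) (hx : ∀ n, x n ≠ 0) (K : Subgroup (GW x)) [K.Normal]
    (hK : K ≠ ⊥) : Bad K := by
  obtain ⟨g, hg, hg1⟩ := K.ne_bot_iff_exists_ne_one.1 hK |>.elim fun a ha =>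
    (⟨a.1, a.2, fun h => ha (Subtype.ext h)⟩ : ∃ g, g ∈ K ∧ g ≠ 1)
  obtain ⟨w, hw⟩ := exists_word g.2
  have h1 : Bad (K.map (GW x).subtype) := by
    refine bad_word w.length x hx 0 w le_rfl ?_ _ ?_
    · rw [hw]
      intro h
      exact hg1 (Subtype.ext h)
    · intro h hh
      rw [hw]
      refine ⟨⁅g, (⟨h, hh⟩ : GW x)⁆, ?_, rfl⟩
      have h2 : g * ((⟨h, hh⟩ : GW x) * g⁻¹ * (⟨h, hh⟩ : GW x)⁻¹) ∈ K :=
        mul_mem hg (Subgroup.Normal.conj_mem inferInstance _ (inv_mem hg) _)
      rw [commutatorElement_def]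
      change _ ∈ K
      simpa only [mul_assoc] using h2
  refine h1.mono (SubQ.of_injective
    (K.equivMapOfInjective _ (GW x).subtype_injective).symm.toMonoidHom
    (K.equivMapOfInjective _ (GW x).subtype_injective).symm.injective)

end Vale.Agent.P215.H788
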