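import Mathlib

/-!
# P215: open conditions on marked groups
-/

noncomputable section

namespace Vale.Agent.P215.H788

open Subgroup

/-- The marked groups `(Γ, g)` and `(Γ', g')` have the same relations of length at most `R`. -/
def Agree {n : ℕ} (R : ℕ) {Γ Γ' : Type} [Group Γ] [Group Γ'] (g : Fin n → Γ) (g' : Fin n → Γ') :
    Prop :=
  ∀ w : FreeGroup (Fin n), w.norm ≤ R → (FreeGroup.lift g w = 1 ↔ FreeGroup.lift g' w = 1)

/-- The condition on a marked group `(Γ, g)`: every homomorphism `P → Γ` which sends the generators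
`p j` to the elements `f j` (words in `g`) kills one of the sets in `DD`. -/
def Cond {P : Type} [Group P] {r : ℕ} (p : Fin r → P) (DD : Set (Set P)) {n : ℕ}
    (f : Fin r → FreeGroup (Fin n)) (Γ : Type) [Group Γ] (g : Fin n → Γ) : Prop :=
  ∀ φ : P →* Γ, (∀ j, φ (p j) = FreeGroup.lift g (f j)) → ∃ S ∈ DD, ∀ s ∈ S, φ s = 1

theorem lift_comp {P : Type} [Group P] {r n : ℕ} (p : Fin r → P) (f : Fin r → FreeGroup (Fin n))
    {Γ : Type} [Group Γ] (g : Fin n → Γ) (φ : P →* Γ)
    (hφ : ∀ j, φ (p j) = FreeGroup.lift g (f j)) (v : FreeGroup (Fin r)) :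
    φ (FreeGroup.lift p v) = FreeGroup.lift g (FreeGroup.lift f v) := by
  have : φ.comp (FreeGroup.lift p) = (FreeGroup.lift g).comp (FreeGroup.lift f) := by
    apply FreeGroup.ext_hom
    intro j
    simp [hφ j]
  exact DFunLike.congr_fun this v

/-- `Cond` is an open condition. -/
theorem cond_open {P : Type} [Group P] {r : ℕ} (p : Fin r → P) (hp : closure (Set.range p) = ⊤)
    (DD : Set (Set P)) (hDD : ∀ S ∈ DD, S.Finite) {n : ℕ} (f : Fin r → FreeGroup (Fin n))
    (Γ : Type) [Group Γ] (g : Fin n → Γ) (h : Cond p DD f Γ g) :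
    ∃ R : ℕ, ∀ (Γ' : Type) [Group Γ'] (g' : Fin n → Γ'), Agree R g g' → Cond p DD f Γ' g' := by
  classical
  have hsurj : Function.Surjective (FreeGroup.lift p) := by
    rw [← MonoidHom.range_eq_top, FreeGroup.range_lift_eq_closure, hp]
  by_cases hex : ∃ φ : P →* Γ, ∀ j, φ (p j) = FreeGroup.lift g (f j)
  · obtain ⟨φ, hφ⟩ := hex
    obtain ⟨S, hS, hφS⟩ := h φ hφ
    choose v hv using hsurj
    obtain ⟨R, hR⟩ : ∃ R : ℕ, ∀ s ∈ S, (FreeGroup.lift f (v s)).norm ≤ R := by
      obtain ⟨R, hR⟩ := ((hDD S hS).image fun s => (FreeGroup.lift f (v s)).norm).bddAbove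
      exact ⟨R, fun s hs => hR ⟨s, hs, rfl⟩⟩
    refine ⟨R, fun Γ' _ g' hA φ' hφ' => ⟨S, hS, fun s hs => ?_⟩⟩
    have h1 := lift_comp p f g φ hφ (v s)
    have h2 := lift_comp p f g' φ' hφ' (v s)
    rw [hv] at h1 h2
    rw [h2, ← hA _ (hR s hs), ← h1]
    exact hφS s hs
  · obtain ⟨v, hv1, hv2⟩ : ∃ v : FreeGroup (Fin r), FreeGroup.lift p v = 1 ∧
        FreeGroup.lift g (FreeGroup.lift f v) ≠ 1 := by
      by_contra hcon
      push Not at hcon
      apply hex
      refine ⟨(FreeGroup.lift p).liftOfSurjective hsurj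
        ⟨(FreeGroup.lift g).comp (FreeGroup.lift f), fun v hv => hcon v hv⟩, fun j => ?_⟩
      have h3 : FreeGroup.lift p (FreeGroup.of j) = p j := by simp
      rw [← h3, MonoidHom.liftOfRightInverse_comp_apply]
      simp
    refine ⟨(FreeGroup.lift f v).norm, fun Γ' _ g' hA φ' hφ' => ?_⟩
    exfalso
    have h2 := lift_comp p f g' φ' hφ' v
    rw [hv1, map_one] at h2
    exact hv2 ((hA _ le_rfl).2 h2.symm)

end Vale.Agent.P215.H788
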