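import Vale.Agent.P215.H788.Ball
import Vale.Agent.P215.H788.Open

/-!
# P215: the diagonal argument
-/

noncomputable section

namespace Vale.Agent.P215.H788

open Subgroup

/-- The marking of the group `GW x`. -/
def gens (x : ℕ → ℕ) (i : Fin 2) : GW x :=
  if i = 0 then ⟨tW, tW_mem x⟩ else ⟨bW x, bW_mem x⟩

theorem gens_val (x : ℕ → ℕ) (i : Fin 2) : (gens x i : Wr P) = gen x i := by
  unfold gens gen
  split_ifs <;> rfl

theorem closure_gens (x : ℕ → ℕ) : closure (Set.range (gens x)) = ⊤ := by
  have h1 : (closure (Set.range (gens x))).map (GW x).subtype = GW x := by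
    rw [MonoidHom.map_closure, ← Set.range_comp]
    have : Set.range ((GW x).subtype ∘ gens x) = {tW, bW x} := by
      ext a
      simp only [Set.mem_range, Function.comp_apply, coe_subtype, gens_val, Set.mem_insert_iff,
        Set.mem_singleton_iff]
      constructor
      · rintro ⟨i, rfl⟩
        unfold gen
        split_ifs
        · exact Or.inl rfl
        · exact Or.inr rfl
      · rintro (rfl | rfl)
        · exact ⟨0, rfl⟩
        · exact ⟨1, rfl⟩
    rw [this, GW]
  rw [eq_top_iff]
  intro a _
  have h2 : (a : Wr P) ∈ (closure (Set.range (gens x))).map (GW x).subtype := by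
    rw [h1]
    exact a.2
  obtain ⟨c, hc, hca⟩ := h2
  have : c = a := Subtype.ext hca
  rwa [← this]

theorem lift_gens (x : ℕ → ℕ) (w : FreeGroup (Fin 2)) :
    ((FreeGroup.lift (gens x) w : GW x) : Wr P) = evW x w.toWord := by
  have h1 : ((FreeGroup.lift (gens x) w : GW x) : Wr P) = FreeGroup.lift (gen x) w := by
    have : (GW x).subtype.comp (FreeGroup.lift (gens x)) = FreeGroup.lift (gen x) := by
      apply FreeGroup.ext_hom
      intro j
      simp [gens_val]
    exact DFunLike.congr_fun this w
  rw [h1]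
  conv_lhs => rw [← FreeGroup.mk_toWord (x := w)]
  rw [FreeGroup.lift_mk]
  rfl

theorem lift_gens_eq_one (x : ℕ → ℕ) (w : FreeGroup (Fin 2)) :
    FreeGroup.lift (gens x) w = 1 ↔ evW x w.toWord = 1 := by
  rw [← lift_gens]
  exact (OneMemClass.coe_eq_one (x := FreeGroup.lift (gens x) w)).symm

theorem agree_gens (R k : ℕ) (x y : ℕ → ℕ) (h : ∀ i < k, x i = y i) (hx : x k = 0 ∨ R < x k)
    (hy : y k = 0 ∨ R < y k) : Agree R (gens x) (gens y) := by
  intro w hw
  rw [lift_gens_eq_one, lift_gens_eq_one]
  exact ball R k x y h hx hy _ hw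

section Diag

variable (R : ℕ → (ℕ → ℕ) → ℕ) (s : ℕ → Bool)

/-- The finite stages of the construction. -/
def pre : ℕ → (ℕ → ℕ)
  | 0 => fun _ => 0
  | k + 1 => Function.update (pre k) k (R k (pre k) + 1 + (s k).toNat)

/-- The limit sequence. -/
def lim (n : ℕ) : ℕ := pre R s (n + 1) n

theorem pre_ge (k n : ℕ) (h : k ≤ n) : pre R s k n = 0 := by
  induction k with
  | zero => rfl
  | succ k ih =>
    simp only [pre]
    rw [Function.update_of_ne (by omega)]
    exact ih (by omega)

theorem pre_lt (k n : ℕ) (h : n < k) : pre R s k n = lim R s n := by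
  induction k with
  | zero => omega
  | succ k ih =>
    by_cases hk : n = k
    · subst hk; rfl
    · simp only [pre]
      rw [Function.update_of_ne hk]
      exact ih (by omega)

theorem lim_eq (k : ℕ) : lim R s k = R k (pre R s k) + 1 + (s k).toNat := by
  simp only [lim, pre, Function.update_self]

theorem pre_congr (s s' : ℕ → Bool) (k : ℕ) (h : ∀ i < k, s i = s' i) :
    pre R s k = pre R s' k := by
  induction k with
  | zero => rfl
  | succ k ih =>
    simp only [pre]
    rw [ih fun i hi => h i (by omega), h k (by omega)]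

theorem lim_injective : Function.Injective (lim R) := by
  intro s s' h
  by_contra hne
  have hex : ∃ k, s k ≠ s' k := by
    by_contra hcon
    push Not at hcon
    exact hne (funext hcon)
  classical
  let k := Nat.find hex
  have h1 : s k ≠ s' k := Nat.find_spec hex
  have h2 : ∀ i < k, s i = s' i := fun i hi => not_not.1 (Nat.find_min hex hi)
  have h3 := congrFun h k
  rw [lim_eq, lim_eq, pre_congr R s s' k h2] at h3
  have h4 : (s k).toNat = (s' k).toNat := by omega
  apply h1
  cases hs : s k <;> cases hs' : s' k <;> simp_all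

end Diag

/-- **The diagonal argument.**  Let countably many open conditions on marked groups be satisfied by
the (solvable) groups `GW z` for the sequences `z` with a zero. Then there is an injective family,
indexed by the sequences of bits, of sequences `x` without zeros such that all groups `GW x`
satisfy all conditions. -/
theorem diagonal {I : Type} [Countable I]
    (C : I → ∀ (Γ : Type) [Group Γ], (Fin 2 → Γ) → Prop)
    (hopen : ∀ (i : I) (Γ : Type) [Group Γ] (g : Fin 2 → Γ), C i Γ g →
      ∃ R : ℕ, ∀ (Γ' : Type) [Group Γ'] (g' : Fin 2 → Γ'), Agree R g g' → C i Γ' g')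
    (hC : ∀ (i : I) (z : ℕ → ℕ), (∃ k, z k = 0) → C i (GW z) (gens z)) :
    ∃ F : (ℕ → Bool) → (ℕ → ℕ), Function.Injective F ∧
      ∀ s, (∀ n, F s n ≠ 0) ∧ ∀ i, C i (GW (F s)) (gens (F s)) := by
  rcases isEmpty_or_nonempty I with hI | hI
  · refine ⟨lim fun _ _ => 0, lim_injective _, fun s => ⟨fun n => ?_, fun i => hI.elim i⟩⟩
    rw [lim_eq]
    omega
  · obtain ⟨e, he⟩ := exists_surjective_nat I
    have hR : ∀ (k : ℕ) (z : ℕ → ℕ), ∃ R : ℕ, (∃ k, z k = 0) →
        ∀ (Γ' : Type) [Group Γ'] (g' : Fin 2 → Γ'), Agree R (gens z) g' → C (e k) Γ' g' := by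
      intro k z
      by_cases hz : ∃ k, z k = 0
      · obtain ⟨R, hR⟩ := hopen (e k) _ _ (hC (e k) z hz)
        exact ⟨R, fun _ => hR⟩
      · exact ⟨0, fun h => absurd h hz⟩
    choose R hR using hR
    refine ⟨lim R, lim_injective _, fun s => ⟨fun n => ?_, fun i => ?_⟩⟩
    · rw [lim_eq]
      omega
    · obtain ⟨k, rfl⟩ := he i
      have h0 : pre R s k k = 0 := pre_ge R s k k le_rfl
      refine hR k (pre R s k) ⟨k, h0⟩ _ _ (agree_gens _ k _ _ (fun i hi => pre_lt R s k i hi)
        (Or.inl h0) (Or.inr ?_))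
      rw [lim_eq]
      omega

end Vale.Agent.P215.H788
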