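import Vale.Agent.P215.H788.Diag

/-!
# P215: the relations of `GW x` determine `x`; continuum many groups
-/

noncomputable section

namespace Vale.Agent.P215.H788

open Subgroup
open scoped commutatorElement

/-- The free group on `t`, `b`. -/
abbrev F2 : Type := FreeGroup (Fin 2)

/-- The value of an element of the free group. -/
def val (x : ℕ → ℕ) : F2 →* Wr P := FreeGroup.lift (gen x)

theorem val_eq (x : ℕ → ℕ) (w : F2) : val x w = ((FreeGroup.lift (gens x) w : GW x) : Wr P) := by
  have : val x = (GW x).subtype.comp (FreeGroup.lift (gens x)) := by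
    apply FreeGroup.ext_hom
    intro j
    simp [val, gens_val]
  rw [this]
  rfl

/-- the generators of the free group. -/
def tF : F2 := FreeGroup.of 0
/-- the generators of the free group. -/
def bF : F2 := FreeGroup.of 1

@[simp] theorem val_tF (x : ℕ → ℕ) : val x tF = tW := by simp [val, tF, gen]
@[simp] theorem val_bF (x : ℕ → ℕ) : val x bF = bW x := by simp [val, bF, gen]

theorem val_conj (x : ℕ → ℕ) (k : ℤ) :
    val x (tF ^ k * bF * (tF ^ k)⁻¹) = ⟨fun q => (bW x).s (q - k), 0⟩ := by
  simp only [map_mul, map_inv, map_zpow, val_tF, val_bF]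
  rw [conj_tW]
  rfl

/-- The lift of words: for `w` in the commutator subgroup its value is the value of `w` on the next
level, placed at `0`. -/
def lam (M : ℕ) : F2 →* F2 :=
  FreeGroup.lift fun i : Fin 2 => if i = 0 then bF else tF ^ (-(M : ℤ)) * bF * (tF ^ (-(M : ℤ)))⁻¹

theorem lam_tF (M : ℕ) : lam M tF = bF := by simp [lam, tF]
theorem lam_bF (M : ℕ) : lam M bF = tF ^ (-(M : ℤ)) * bF * (tF ^ (-(M : ℤ)))⁻¹ := by
  simp [lam, bF]

/-- a homomorphism from the free group with commuting images of the generators kills the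
commutator subgroup -/
theorem eq_one_of_commute {A : Type} [Group A] (f : F2 →* A) (h : Commute (f tF) (f bF)) (w : F2)
    (hw : w ∈ commutator F2) : f w = 1 := by
  have h1 : ∀ u v : F2, Commute (f u) (f v) := by
    have hg : ∀ (i j : Fin 2), Commute (f (FreeGroup.of i)) (f (FreeGroup.of j)) := by
      intro i j
      fin_cases i <;> fin_cases j
      · exact Commute.refl _
      · exact h
      · exact h.symm
      · exact Commute.refl _
    have h2 : ∀ (i : Fin 2) (v : F2), Commute (f (FreeGroup.of i)) (f v) := by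
      intro i v
      induction v using FreeGroup.induction_on with
      | C1 => rw [map_one]; exact Commute.one_right _
      | of j => exact hg i j
      | inv_of j ih => rw [map_inv]; exact ih.inv_right
      | mul a c ha hc => rw [map_mul]; exact ha.mul_right hc
    intro u v
    induction u using FreeGroup.induction_on with
    | C1 => rw [map_one]; exact Commute.one_left _
    | of j => exact h2 j v
    | inv_of j ih => rw [map_inv]; exact ih.inv_left
    | mul a c ha hc => rw [map_mul]; exact ha.mul_left hc
  have h3 : commutator F2 ≤ f.ker := by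
    rw [_root_.commutator_def, commutator_le]
    intro a _ c _
    rw [MonoidHom.mem_ker, map_commutatorElement, commutatorElement_eq_one_iff_commute]
    exact h1 a c
  exact h3 hw

theorem val_lam (x : ℕ → ℕ) (hx : x 0 ≠ 0) (w : F2) (hw : w ∈ commutator F2) :
    val x (lam (x 0) w) = Wr.single 0 (iota (val (tl x) w)) := by
  have hx' : (x 0 : ℤ) ≠ 0 := by exact_mod_cast hx
  have hbase : ∀ w, (val x (lam (x 0) w)) ∈ Wr.base P := by
    intro w
    induction w using FreeGroup.induction_on with
    | C1 => simp [one_mem]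
    | of j =>
      fin_cases j
      · change val x (lam (x 0) tF) ∈ Wr.base P
        rw [lam_tF, val_bF]
        rfl
      · change val x (lam (x 0) bF) ∈ Wr.base P
        rw [lam_bF, val_conj]
        rfl
    | inv_of j ih => rw [map_inv, map_inv]; exact inv_mem ih
    | mul a c ha hc => rw [map_mul, map_mul]; exact mul_mem ha hc
  -- the section homomorphisms
  let σ (q : ℤ) : F2 →* P :=
    (Wr.sec q).comp (((val x).comp (lam (x 0))).codRestrict (Wr.base P) hbase)
  have hσ : ∀ q w, σ q w = (val x (lam (x 0) w)).s q := fun q w => rfl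
  have ht : ∀ q, σ q tF = if q = 0 then t else if q = x 0 then b (tl x) else 1 := by
    intro q
    rw [hσ, lam_tF, val_bF, bW_s]
  have hb : ∀ q, σ q bF =
      if q + x 0 = 0 then t else if q = 0 then b (tl x) else 1 := by
    intro q
    rw [hσ, lam_bF, val_conj]
    simp only [bW_s, sub_neg_eq_add]
    by_cases h1 : q + x 0 = 0
    · rw [if_pos h1, if_pos h1]
    · rw [if_neg h1, if_neg h1]
      by_cases h2 : q = 0
      · subst h2
        simp
      · have h3 : q + x 0 ≠ x 0 := by
          intro hh; apply h2; linarith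
        rw [if_neg h2, if_neg h3]
  refine Wr.ext (funext fun q => ?_) (hbase w)
  rw [Wr.single_s, ← hσ]
  by_cases h0 : q = 0
  · subst h0
    rw [if_pos rfl]
    have : σ 0 = iota.comp (val (tl x)) := by
      apply FreeGroup.ext_hom
      intro j
      fin_cases j
      · change σ 0 tF = iota (val (tl x) tF)
        rw [ht, if_pos rfl, val_tF]
        rfl
      · change σ 0 bF = iota (val (tl x) bF)
        rw [hb, if_pos rfl, val_bF, iota_bW, zero_add, if_neg hx']
    rw [this]
    rfl
  · rw [if_neg h0]
    apply eq_one_of_commute (σ q) _ w hw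
    rw [ht, hb, if_neg h0]
    by_cases h1 : q = x 0
    · have h2 : q + x 0 ≠ 0 := by omega
      rw [if_neg h2, if_neg h0]
      exact Commute.one_right _
    · rw [if_neg h1]
      exact Commute.one_left _

theorem lam_mem (M : ℕ) (w : F2) (hw : w ∈ commutator F2) : lam M w ∈ commutator F2 := by
  have : (commutator F2).map (lam M) ≤ commutator F2 := by
    rw [_root_.commutator_def, map_commutator]
    exact commutator_mono le_top le_top
  exact this ⟨w, hw, rfl⟩

/-- The same relations in the commutator subgroup. -/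
def SameRel (x y : ℕ → ℕ) : Prop := ∀ w ∈ commutator F2, val x w = 1 ↔ val y w = 1

theorem not_commute (x : ℕ → ℕ) : ¬ Commute t (b x) := by
  intro h
  rw [← iota_tW, ← iota_bW, ← commutatorElement_eq_one_iff_commute, ← map_commutatorElement] at h
  have h1 := congrArg (fun u : Wr P => u.s 0) (iota_injective (h.trans (map_one _).symm))
  have h2 : (-1 : ℤ) ≠ x 0 := by omega
  simp only [commutatorElement_def, Wr.mul_s, Wr.inv_s, Wr.mul_e, Wr.inv_e, tW_s, tW_e, bW_s, bW_e,
    Wr.one_s] at h1
  norm_num at h1
  rw [if_neg h2] at h1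
  simp only [inv_eq_one] at h1
  exact t_ne_one h1

/-- the first entry is determined by the relations. -/
theorem SameRel.zero {x y : ℕ → ℕ} (hx : ∀ n, x n ≠ 0) (h : SameRel x y) :
    ¬ x 0 < y 0 := by
  intro hlt
  let w : F2 := ⁅bF, tF ^ (x 0 : ℤ) * bF * (tF ^ (x 0 : ℤ))⁻¹⁆
  have hw : w ∈ commutator F2 := commutator_mem_commutator (mem_top _) (mem_top _)
  have hx0 := hx 0
  have h1 : val y w = 1 := by
    rw [map_commutatorElement, commutatorElement_eq_one_iff_commute, val_conj, val_bF]
    refine Wr.ext (funext fun q => ?_) rfl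
    simp only [Wr.mul_s, bW_s, bW_e, sub_zero]
    by_cases a1 : q = 0
    · have a2 : q - x 0 ≠ 0 := by omega
      have a3 : q - x 0 ≠ y 0 := by omega
      rw [if_neg a2, if_neg a3, one_mul, mul_one]
    · by_cases a4 : q = y 0
      · have a2 : q - x 0 ≠ 0 := by omega
        have a3 : q - x 0 ≠ y 0 := by omega
        rw [if_neg a2, if_neg a3, one_mul, mul_one]
      · rw [if_neg a1, if_neg a4, one_mul, mul_one]
  have h2 := (h w hw).2 h1
  rw [map_commutatorElement, commutatorElement_eq_one_iff_commute, val_conj, val_bF] at h2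
  have h3 := congrArg (fun u : Wr P => u.s (x 0)) h2.eq
  simp only [Wr.mul_s, bW_s, bW_e, sub_zero, sub_self, if_true] at h3
  have a5 : (x 0 : ℤ) ≠ 0 := by exact_mod_cast hx0
  rw [if_neg a5] at h3
  exact not_commute (tl x) h3.symm

theorem SameRel.symm {x y : ℕ → ℕ} (h : SameRel x y) : SameRel y x := fun w hw => (h w hw).symm

theorem SameRel.tl {x y : ℕ → ℕ} (hx : ∀ n, x n ≠ 0) (hy : ∀ n, y n ≠ 0) (h : SameRel x y)
    (h0 : x 0 = y 0) : SameRel (tl x) (tl y) := by
  intro w hw
  have h1 := h (lam (x 0) w) (lam_mem _ _ hw)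
  rw [val_lam x (hx 0) w hw, h0, val_lam y (hy 0) w hw] at h1
  have h2 : ∀ z : Wr P, Wr.single 0 (iota z) = 1 ↔ z = 1 := by
    intro z
    constructor
    · intro hz
      refine iota_injective (Wr.single_injective 0 ?_)
      rw [hz, map_one, map_one]
    · rintro rfl
      rw [map_one, map_one]
  rw [h2, h2] at h1
  exact h1

theorem SameRel.eq {x y : ℕ → ℕ} (hx : ∀ n, x n ≠ 0) (hy : ∀ n, y n ≠ 0) (h : SameRel x y) :
    x = y := by
  have key : ∀ n, ∀ x y : ℕ → ℕ, (∀ n, x n ≠ 0) → (∀ n, y n ≠ 0) → SameRel x y → x n = y n := by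
    intro n
    induction n with
    | zero =>
      intro x y hx hy h
      exact le_antisymm (not_lt.1 (h.symm.zero hy)) (not_lt.1 (h.zero hx))
    | succ n ih =>
      intro x y hx hy h
      have h0 : x 0 = y 0 := le_antisymm (not_lt.1 (h.symm.zero hy)) (not_lt.1 (h.zero hx))
      exact ih (Vale.Agent.P215.H788.tl x) (Vale.Agent.P215.H788.tl y) (tl_ne hx) (tl_ne hy)
        (h.tl hx hy h0)
  exact funext fun n => key n x y hx hy h

instance countable_GW (x : ℕ → ℕ) : Countable (GW x) := by
  have hsurj : Function.Surjective (FreeGroup.lift (gens x)) := by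
    rw [← MonoidHom.range_eq_top, FreeGroup.range_lift_eq_closure, closure_gens]
  exact hsurj.countable

/-- Each of the groups `GW x` is isomorphic to countably many of them only. -/
theorem countable_iso (x : ℕ → ℕ) :
    {y : ℕ → ℕ | (∀ n, y n ≠ 0) ∧ Nonempty (GW y ≃* GW x)}.Countable := by
  have h : ∀ y : {y : ℕ → ℕ | (∀ n, y n ≠ 0) ∧ Nonempty (GW y ≃* GW x)},
      Nonempty (GW y.1 ≃* GW x) := fun y => y.2.2
  let e := fun y => Classical.choice (h y)
  have hinj : Function.Injective fun y => (fun i => e y (gens y.1 i) : Fin 2 → GW x) := by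
    intro y z hyz
    refine Subtype.ext (SameRel.eq y.2.1 z.2.1 ?_)
    intro w _
    have h1 : ∀ u : {y : ℕ → ℕ | (∀ n, y n ≠ 0) ∧ Nonempty (GW y ≃* GW x)},
        val u.1 w = 1 ↔ FreeGroup.lift (fun i => e u (gens u.1 i)) w = 1 := by
      intro u
      have h2 : FreeGroup.lift (fun i => e u (gens u.1 i)) =
          (e u).toMonoidHom.comp (FreeGroup.lift (gens u.1)) := by
        apply FreeGroup.ext_hom
        intro j
        simp
      rw [h2, val_eq]
      simp only [MonoidHom.comp_apply, MulEquiv.coe_toMonoidHom, EmbeddingLike.map_eq_one_iff,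
        OneMemClass.coe_eq_one]
    rw [h1 y, h1 z]
    have := hyz
    simp only at this
    rw [this]
  exact hinj.countable

end Vale.Agent.P215.H788
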