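import Vale.Agent.P215.H788.MarkedDefs
import Vale.Agent.P215.H788.Abs

/-!
# P215: classes given by open conditions are `G_δ` sets in the space of marked groups
-/

noncomputable section

namespace Vale.Agent.P215.H788

open Topology Set

namespace MarkedGroup

variable {n : ℕ}

/-- The marking. -/
def mark (N : MarkedGroup n) (i : Fin n) : N.Grp := QuotientGroup.mk' N.1 (FreeGroup.of i)

theorem lift_mark (N : MarkedGroup n) (w : FreeGroup (Fin n)) :
    FreeGroup.lift N.mark w = QuotientGroup.mk' N.1 w := by
  have : FreeGroup.lift N.mark = QuotientGroup.mk' N.1 := by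
    apply FreeGroup.ext_hom
    intro j
    simp [mark]
  rw [this]

theorem lift_mark_eq_one (N : MarkedGroup n) (w : FreeGroup (Fin n)) :
    FreeGroup.lift N.mark w = 1 ↔ w ∈ N.1 := by
  rw [lift_mark]
  exact QuotientGroup.eq_one_iff w

theorem closure_mark (N : MarkedGroup n) : Subgroup.closure (Set.range N.mark) = ⊤ := by
  rw [← FreeGroup.range_lift_eq_closure, MonoidHom.range_eq_top]
  intro a
  obtain ⟨w, rfl⟩ := QuotientGroup.mk'_surjective N.1 a
  exact ⟨w, N.lift_mark w⟩

theorem finite_norm_le (R : ℕ) : {w : FreeGroup (Fin n) | w.norm ≤ R}.Finite := by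
  have h1 : {l : List (Fin n × Bool) | l.length ≤ R}.Finite := List.finite_length_le _ _
  exact h1.preimage FreeGroup.toWord_injective.injOn

/-- The ball around a marked group. -/
theorem ball_mem_nhds (N : MarkedGroup n) (R : ℕ) :
    {N' : MarkedGroup n | ∀ w : FreeGroup (Fin n), w.norm ≤ R → (w ∈ N.1 ↔ w ∈ N'.1)} ∈ 𝓝 N := by
  have h1 : {N' : MarkedGroup n | ∀ w : FreeGroup (Fin n), w.norm ≤ R → (w ∈ N.1 ↔ w ∈ N'.1)} =
      ⋂ w ∈ {w : FreeGroup (Fin n) | w.norm ≤ R}, char ⁻¹' {f | f w = char N w} := by
    ext N'
    simp only [mem_iInter, mem_preimage]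
    constructor
    · intro h w hw
      have := h w hw
      change N'.char w = N.char w
      unfold char
      simp [this]
    · intro h w hw
      have := h w hw
      change N'.char w = N.char w at this
      unfold char at this
      simpa [eq_comm] using this
  rw [h1]
  refine IsOpen.mem_nhds ?_ ?_
  · refine (finite_norm_le R).isOpen_biInter fun w _ => ?_
    refine IsOpen.preimage continuous_induced_dom ?_
    have hc : Continuous fun f : FreeGroup (Fin n) → Bool => f w := continuous_apply w
    exact (isOpen_discrete ({char N w} : Set Bool)).preimage hc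
  · simp only [mem_iInter, mem_preimage]
    intro w _
    rfl

end MarkedGroup

namespace OpenData

variable (A : OpenData)

theorem isOpen_C {n : ℕ} (j : A.J n) : IsOpen {N : MarkedGroup n | A.C j N.Grp N.mark} := by
  rw [isOpen_iff_mem_nhds]
  intro N hN
  obtain ⟨R, hR⟩ := A.C_open j _ _ hN
  filter_upwards [N.ball_mem_nhds R] with N' hN'
  refine hR _ _ fun w hw => ?_
  rw [N.lift_mark_eq_one, N'.lift_mark_eq_one]
  exact hN' w hw

/-- **The marked groups in the class form a `G_δ` set.** -/
theorem isGδ_class (n : ℕ) : IsGδ {N : MarkedGroup n | A.Class N.Grp} := by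
  have : {N : MarkedGroup n | A.Class N.Grp} = ⋂ j : A.J n, {N | A.C j N.Grp N.mark} := by
    ext N
    simp only [mem_iInter]
    exact A.class_iff N.Grp N.mark N.closure_mark
  rw [this]
  exact IsGδ.iInter fun j => (A.isOpen_C j).isGδ

end OpenData

end Vale.Agent.P215.H788
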