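import Vale.Agent.P215.H579.Interface
import Vale.Agent.P215.H788.Gdelta

/-!
# P215: the class of good groups
-/

noncomputable section

namespace Vale.Agent.P215.H788

open Subgroup

/-- The data of the class of good groups. -/
def goodData : OpenData where
  I := CappedGrope
  P := fun G => FundamentalGroup G.Thickening G.basePt
  DD := fun G => {S | S.Finite ∧ ∃ D : FramedDisc G.Thickening G.attach,
    ∀ (Γ : Type) [Group Γ] (φ : FundamentalGroup G.Thickening G.basePt →* Γ),
      D.Kills φ ↔ ∀ w ∈ S, φ w = 1}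
  countable := inferInstance
  fg := fun G => H579.fg_thickening G G.basePt
  finite := fun _ _ hS => hS.1

theorem good_iff (Γ : Type) [Group Γ] : Good Γ ↔ goodData.Class Γ := by
  constructor
  · refine fun h (G : CappedGrope) (φ : FundamentalGroup G.Thickening G.basePt →* Γ) => ?_
    obtain ⟨D, hD⟩ := h G φ
    obtain ⟨R, hR, hR'⟩ := H579.exists_finset_kills D G.basePt
    exact ⟨R, ⟨hR, D, hR'⟩, (hR' Γ φ).1 hD⟩
  · intro h G φ
    obtain ⟨S, ⟨_, D, hS⟩, hSφ⟩ := h G φ
    exact ⟨D, (hS Γ φ).2 hSφ⟩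

/-- The good marked groups form a `G_δ` set. -/
theorem isGδ_good (n : ℕ) : IsGδ {N : MarkedGroup n | Good N.Grp} := by
  have : {N : MarkedGroup n | Good N.Grp} = {N : MarkedGroup n | goodData.Class N.Grp} := by
    ext N
    exact good_iff N.Grp
  rw [this]
  exact goodData.isGδ_class n

/-- The class of good groups is not the class `SG`. -/
theorem good_ne_SG : ∃ (Γ : Type) (_ : Group Γ), Group.FG Γ ∧ ¬ (Good Γ ↔ SG Γ) := by
  obtain ⟨Γ, _, h1, h2⟩ := goodData.exists_ne_SG
  exact ⟨Γ, _, h1, by rwa [good_iff]⟩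

/-- If the solvable groups are good, there are continuum many good groups outside `SG`. -/
theorem exists_good_family
    (hs : ∀ (Γ : Type) [Group Γ], Group.FG Γ → Group.IsSolvable Γ → Good Γ) :
    ∃ (Γ : (ℕ → Bool) → Type) (_ : ∀ s, Group (Γ s)),
      (∀ s, ∃ g : Fin 2 → Γ s, closure (Set.range g) = ⊤) ∧ (∀ s, Good (Γ s)) ∧
      (∀ s, ¬ SG (Γ s)) ∧ ∀ s s', s ≠ s' → IsEmpty (Γ s ≃* Γ s') := by
  obtain ⟨Γ, i, h1, h2, h3, h4⟩ :=
    goodData.exists_family fun Γ _ hfg hsol => (good_iff Γ).1 (hs Γ hfg hsol)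
  exact ⟨Γ, i, h1, fun s => (good_iff (Γ s)).2 (h2 s), h3, h4⟩

end Vale.Agent.P215.H788
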