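import Vale.Agent.P215.H788.Wreath

/-!
# P215: the groups `GW x`, their derived subgroups and sections
-/

noncomputable section

namespace Vale.Agent.P215.H788

open Subgroup
open scoped commutatorElement

/-- conjugation by powers of `t` moves the sections. -/
theorem tW_zpow (k : ℤ) : (tW ^ k : Wr P) = ⟨fun _ => 1, k⟩ := by
  have key : ∀ n : ℕ, (tW ^ n : Wr P) = ⟨fun _ => 1, n⟩ := by
    intro n
    induction n with
    | zero => simp only [pow_zero, Nat.cast_zero]; rfl
    | succ n ih =>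
      rw [pow_succ, ih]
      refine Wr.ext (funext fun q => ?_) ?_
      · simp [tW]
      · simp [tW]
  cases k with
  | ofNat n => simpa using key n
  | negSucc n =>
    rw [zpow_negSucc, key]
    refine Wr.ext (funext fun q => ?_) ?_
    · simp
    · simp only [Wr.inv_e]; rfl

theorem conj_tW (k : ℤ) (w : Wr P) :
    (tW ^ k : Wr P) * w * (tW ^ k)⁻¹ = ⟨fun q => w.s (q - k), w.e⟩ := by
  rw [tW_zpow]
  refine Wr.ext (funext fun q => ?_) ?_
  · simp
  · simp

theorem conj_single (f : Wr P) (p : ℤ) (z : P) :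
    f * Wr.single p z * f⁻¹ =
      Wr.single (p + f.e) (f.s (p + f.e) * z * (f.s (p + f.e))⁻¹) := by
  refine Wr.ext (funext fun q => ?_) ?_
  · by_cases h : q = p + f.e
    · subst h
      simp
    · have h' : q - f.e ≠ p := fun hh => h (by rw [← hh]; ring)
      simp [h, h']
  · simp

/-- The group `G_x` in the wreath product. -/
def GW (x : ℕ → ℕ) : Subgroup (Wr P) := closure {tW, bW x}

theorem tW_mem (x : ℕ → ℕ) : tW ∈ GW x := subset_closure (by simp)
theorem bW_mem (x : ℕ → ℕ) : bW x ∈ GW x := subset_closure (by simp)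

/-- The derived series. -/
def D : ℕ → (ℕ → ℕ) → Subgroup (Wr P)
  | 0, x => GW x
  | d + 1, x => ⁅D d x, D d x⁆

/-- the images of the subgroups of the base group under the section homomorphism at `p`. -/
def Im (p : ℤ) (H : Subgroup (Wr P)) : Subgroup P := (H.subgroupOf (Wr.base P)).map (Wr.sec p)

theorem mem_Im {p : ℤ} {H : Subgroup (Wr P)} {z : P} :
    z ∈ Im p H ↔ ∃ f ∈ H, f.e = 0 ∧ f.s p = z := by
  constructor
  · rintro ⟨f, hf, rfl⟩
    exact ⟨f.1, hf, f.2, rfl⟩
  · rintro ⟨f, hf, he, rfl⟩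
    exact ⟨⟨f, he⟩, hf, rfl⟩

theorem Im_commutator (p : ℤ) (H : Subgroup (Wr P)) : ⁅Im p H, Im p H⁆ ≤ Im p ⁅H, H⁆ := by
  rw [commutator_le]
  intro a ha b hb
  obtain ⟨f, hf, hfe, rfl⟩ := mem_Im.1 ha
  obtain ⟨g, hg, hge, rfl⟩ := mem_Im.1 hb
  refine mem_Im.2 ⟨⁅f, g⁆, commutator_mem_commutator hf hg, ?_, ?_⟩
  · simp [commutatorElement_def, hfe, hge]
  · simp [commutatorElement_def, hfe, hge]

theorem Im_mono {p : ℤ} {H K : Subgroup (Wr P)} (h : H ≤ K) : Im p H ≤ Im p K := by
  intro z hz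
  obtain ⟨f, hf, h1, h2⟩ := mem_Im.1 hz
  exact mem_Im.2 ⟨f, h hf, h1, h2⟩

/-- the commutator subgroup of a group generated by `A`. -/
theorem commutator_closure_le {G : Type} [Group G] (A : Set G) (S : Subgroup G)
    (hn : ∀ g ∈ closure A, ∀ s ∈ S, g * s * g⁻¹ ∈ S) (h : ∀ a ∈ A, ∀ b ∈ A, ⁅a, b⁆ ∈ S) :
    ⁅closure A, closure A⁆ ≤ S := by
  rw [commutator_le]
  have hinv : ∀ g ∈ closure A, ∀ s ∈ S, g⁻¹ * s * g ∈ S := by
    intro g hg s hs
    have := hn g⁻¹ (inv_mem hg) s hs
    rwa [inv_inv] at this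
  have h1 : ∀ c ∈ closure A, (∀ a ∈ A, ⁅a, c⁆ ∈ S) → ∀ g ∈ closure A, ⁅g, c⁆ ∈ S := by
    intro c hc hac g hg
    induction hg using closure_induction with
    | mem a ha => exact hac a ha
    | one => simp [one_mem]
    | mul a b ha hb iha ihb =>
      have : ⁅a * b, c⁆ = a * ⁅b, c⁆ * a⁻¹ * ⁅a, c⁆ := by
        simp only [commutatorElement_def]; group
      rw [this]
      exact mul_mem (hn a ha _ ihb) iha
    | inv a ha iha =>
      have : ⁅a⁻¹, c⁆ = a⁻¹ * ⁅a, c⁆⁻¹ * a := by
        simp only [commutatorElement_def]; group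
      rw [this]
      exact hinv a ha _ (inv_mem iha)
  intro g hg c hc
  have h2 : ∀ a ∈ A, ⁅a, g⁆ ∈ S := by
    intro a ha
    have := h1 a (subset_closure ha) (fun b hb => h b hb a ha) g hg
    rw [← commutatorElement_inv]
    exact inv_mem this
  have h3 := h1 g hg h2 c hc
  rw [← commutatorElement_inv]
  exact inv_mem h3

/-- `G_x` in the group `P`. -/
def GP (x : ℕ → ℕ) : Subgroup P := (GW x).map iota

theorem GP_eq (x : ℕ → ℕ) : GP x = closure {t, b x} := by
  unfold GP GW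
  rw [MonoidHom.map_closure, Set.image_pair, iota_tW, iota_bW]

theorem GP_le_Im (x : ℕ → ℕ) (hx : x 0 ≠ 0) (p : ℤ) : GP (tl x) ≤ Im p (GW x) := by
  rw [GP_eq, closure_le]
  have hconj : ∀ k : ℤ, ((tW ^ k : Wr P) * bW x * (tW ^ k)⁻¹) ∈ GW x := fun k =>
    mul_mem (mul_mem (zpow_mem (tW_mem x) k) (bW_mem x)) (inv_mem (zpow_mem (tW_mem x) k))
  rintro z (rfl | rfl)
  · refine mem_Im.2 ⟨_, hconj p, ?_, ?_⟩
    · rw [conj_tW]; rfl
    · rw [conj_tW]; simp [bW]
  · refine mem_Im.2 ⟨_, hconj (p - x 0), ?_, ?_⟩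
    · rw [conj_tW]; rfl
    · rw [conj_tW]; simp [bW, hx]

theorem single_mem_GW (x : ℕ → ℕ) (hx : x 0 ≠ 0) (z : P) (hz : z ∈ ⁅GP (tl x), GP (tl x)⁆)
    (p : ℤ) : Wr.single p z ∈ GW x := by
  let S : Subgroup P := ⨅ p : ℤ, (GW x).comap (Wr.single p)
  have hS : ∀ z, z ∈ S ↔ ∀ p, Wr.single p z ∈ GW x := by
    intro z
    simp [S, mem_iInf]
  have key : ⁅GP (tl x), GP (tl x)⁆ ≤ S := by
    rw [GP_eq]
    have hc : ⁅t, b (tl x)⁆ ∈ S := by
      rw [hS]
      intro p
      have h1 : ((tW ^ p : Wr P) * bW x * (tW ^ p)⁻¹) ∈ GW x :=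
        mul_mem (mul_mem (zpow_mem (tW_mem x) _) (bW_mem x)) (inv_mem (zpow_mem (tW_mem x) _))
      have h2 : ((tW ^ (p - x 0) : Wr P) * bW x * (tW ^ (p - x 0))⁻¹) ∈ GW x :=
        mul_mem (mul_mem (zpow_mem (tW_mem x) _) (bW_mem x)) (inv_mem (zpow_mem (tW_mem x) _))
      have h3 := mul_mem (mul_mem (mul_mem h1 h2) (inv_mem h1)) (inv_mem h2)
      convert h3 using 1
      have hx' : (x 0 : ℤ) ≠ 0 := by exact_mod_cast hx
      rw [conj_tW, conj_tW]
      refine Wr.ext (funext fun q => ?_) ?_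
      · simp only [Wr.single_s, Wr.mul_s, Wr.mul_e, Wr.inv_s, Wr.inv_e, bW, add_zero, sub_zero,
          neg_zero]
        by_cases hq : q = p
        · subst hq
          simp [hx, commutatorElement_def]
        · have h0 : q - p ≠ 0 := sub_ne_zero.2 hq
          by_cases hq2 : q - p = x 0
          · have h4 : q - (p - x 0) ≠ 0 := by
              intro hh; apply hx'; linarith
            have h5 : q - (p - x 0) ≠ x 0 := by
              intro hh; apply hx'; linarith
            rw [if_neg hq, if_neg h0, if_pos hq2, if_neg h4, if_neg h5]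
            simp
          · rw [if_neg hq, if_neg h0, if_neg hq2]
            simp
      · simp [bW, commutatorElement_def]
    refine commutator_closure_le _ _ ?_ ?_
    · intro g hg s hs
      rw [hS] at hs ⊢
      intro p
      rw [← GP_eq] at hg
      obtain ⟨f, hf, hfe, rfl⟩ := mem_Im.1 (GP_le_Im x hx p hg)
      have := mul_mem (mul_mem hf (hs p)) (inv_mem hf)
      rw [conj_single, hfe, add_zero] at this
      exact this
    · rintro a (rfl | rfl) c (rfl | rfl)
      · simp [one_mem]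
      · exact hc
      · rw [← commutatorElement_inv]
        exact inv_mem hc
      · simp [one_mem]
  exact (hS z).1 (key hz) p

theorem map_single_le (x : ℕ → ℕ) (hx : x 0 ≠ 0) (p : ℤ) (d : ℕ) :
    ((D (d + 1) (tl x)).map iota).map (Wr.single p) ≤ D d x := by
  induction d with
  | zero =>
    rintro _ ⟨z, hz, rfl⟩
    refine single_mem_GW x hx z ?_ p
    unfold D D at hz
    rw [map_commutator] at hz
    exact hz
  | succ d ih =>
    change ((⁅D (d + 1) (tl x), D (d + 1) (tl x)⁆).map iota).map (Wr.single p) ≤ ⁅D d x, D d x⁆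
    rw [map_commutator, map_commutator]
    exact commutator_mono ih ih

theorem le_Im (x : ℕ → ℕ) (hx : x 0 ≠ 0) (d : ℕ) :
    (D d (tl x)).map iota ≤ Im 0 (D (d + 1) x) := by
  induction d with
  | zero =>
    change GP (tl x) ≤ Im 0 ⁅GW x, GW x⁆
    rw [GP_eq, closure_le]
    have ht : t ∈ Im 0 ⁅GW x, GW x⁆ := by
      refine mem_Im.2 ⟨⁅bW x, tW⁆, commutator_mem_commutator (bW_mem x) (tW_mem x), ?_, ?_⟩
      · simp [commutatorElement_def]
      · have h1 : (-1 : ℤ) ≠ x 0 := by omega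
        simp [commutatorElement_def, bW, tW, h1]
    rintro z (rfl | rfl)
    · exact ht
    · have h2 : b (tl x) * t⁻¹ ∈ Im 0 ⁅GW x, GW x⁆ := by
        refine mem_Im.2 ⟨⁅(tW ^ (-(x 0 : ℤ)) : Wr P), bW x⁆,
          commutator_mem_commutator (zpow_mem (tW_mem x) _) (bW_mem x), ?_, ?_⟩
        · simp [commutatorElement_def, bW]
        · rw [commutatorElement_def, conj_tW]
          simp [bW, hx]
      have := mul_mem h2 ht
      simpa using this
  | succ d ih =>
    change (⁅D d (tl x), D d (tl x)⁆).map iota ≤ Im 0 ⁅D (d + 1) x, D (d + 1) x⁆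
    rw [map_commutator]
    exact (commutator_mono ih ih).trans (Im_commutator 0 _)

end Vale.Agent.P215.H788
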