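import Mathlib

/-!
# P215: the space of marked groups
-/

noncomputable section

namespace Vale.Agent.P215.H788

/-- A group marked by `n` generators: a normal subgroup of the free group of rank `n`, with the free
group modulo this subgroup as the group. -/
def MarkedGroup (n : ℕ) : Type := {N : Subgroup (FreeGroup (Fin n)) // N.Normal}

namespace MarkedGroup

variable {n : ℕ}

instance (N : MarkedGroup n) : N.1.Normal := N.2

/-- The underlying group. -/
abbrev Grp (N : MarkedGroup n) : Type := FreeGroup (Fin n) ⧸ N.1

open Classical in
/-- The characteristic function of the normal subgroup. -/
def char (N : MarkedGroup n) (w : FreeGroup (Fin n)) : Bool := decide (w ∈ N.1)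

/-- The topology of the **space of marked groups**: the normal subgroups of the free group form a
subspace of the space of all its subsets, `{0, 1} ^ F_n` with the product topology. -/
instance : TopologicalSpace (MarkedGroup n) := TopologicalSpace.induced char inferInstance

end MarkedGroup

end Vale.Agent.P215.H788
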