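import Vale.Agent.P215.H788.Gdelta

/-!
# P215: the class `SG` is not a `G_δ` set in the space of marked groups
-/

noncomputable section

namespace Vale.Agent.P215.H788

open Topology Set

namespace MarkedGroup

variable {n : ℕ}

/-- The marked group of a group with `n` chosen elements. -/
def of {Γ : Type} [Group Γ] (g : Fin n → Γ) : MarkedGroup n :=
  ⟨(FreeGroup.lift g).ker, inferInstance⟩

theorem mem_of {Γ : Type} [Group Γ] (g : Fin n → Γ) (w : FreeGroup (Fin n)) :
    w ∈ (of g).1 ↔ FreeGroup.lift g w = 1 := Iff.rfl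

/-- The underlying group of `of g` is the group, if it is generated by the chosen elements. -/
def ofEquiv {Γ : Type} [Group Γ] (g : Fin n → Γ) (hg : Subgroup.closure (Set.range g) = ⊤) :
    (of g).Grp ≃* Γ :=
  QuotientGroup.quotientKerEquivOfSurjective (FreeGroup.lift g) (by
    rw [← MonoidHom.range_eq_top, FreeGroup.range_lift_eq_closure, hg])

/-- A neighbourhood contains a ball. -/
theorem exists_ball_subset {U : Set (MarkedGroup n)} (hU : IsOpen U) {N : MarkedGroup n}
    (hN : N ∈ U) : ∃ R : ℕ, ∀ N' : MarkedGroup n,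
      (∀ w : FreeGroup (Fin n), w.norm ≤ R → (w ∈ N.1 ↔ w ∈ N'.1)) → N' ∈ U := by
  classical
  obtain ⟨V, hV, rfl⟩ := isOpen_induced_iff.1 hU
  obtain ⟨I, u, hu, hIV⟩ := isOpen_pi_iff.1 hV (char N) hN
  refine ⟨I.sup FreeGroup.norm, fun N' h => hIV ?_⟩
  intro w hw
  have h1 : N'.char w = N.char w := by
    have := h w (Finset.le_sup (f := FreeGroup.norm) hw)
    unfold char
    simp [this]
  rw [h1]
  exact (hu w hw).2

end MarkedGroup

/-- **The class `SG` is not a `G_δ` set** in the space of groups with two marked generators. -/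
theorem not_isGδ_SG : ¬ IsGδ {N : MarkedGroup 2 | SG N.Grp} := by
  intro h
  obtain ⟨U, hU, hUe⟩ := isGδ_iff_eq_iInter_nat.1 h
  obtain ⟨F, -, hF⟩ := diagonal (I := ℕ)
    (fun k Γ _ g => MarkedGroup.of g ∈ U k)
    (fun k Γ _ g hg => by
      obtain ⟨R, hR⟩ := MarkedGroup.exists_ball_subset (hU k) hg
      exact ⟨R, fun Γ' _ g' hA => hR _ fun w hw => hA w hw⟩)
    (fun k z hz => by
      obtain ⟨j, hj⟩ := hz
      have h1 : MarkedGroup.of (gens z) ∈ {N : MarkedGroup 2 | SG N.Grp} :=
        SG.equiv (MarkedGroup.ofEquiv (gens z) (closure_gens z)).symm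
          (SG.of_isSolvable (GW_solvable j z hj))
      rw [hUe] at h1
      exact mem_iInter.1 h1 k)
  let x := F fun _ => false
  have h2 : MarkedGroup.of (gens x) ∈ {N : MarkedGroup 2 | SG N.Grp} := by
    rw [hUe]
    exact mem_iInter.2 (hF _).2
  exact not_SG x (hF _).1 (SG.equiv (MarkedGroup.ofEquiv (gens x) (closure_gens x)) h2)

end Vale.Agent.P215.H788
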