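import Vale.Agent.P215.H788.Descent

/-!
# P215: the groups `GW x` are not in the class `SG`
-/

noncomputable section

namespace Vale.Agent.P215.H788

open Subgroup
open scoped commutatorElement Pointwise

theorem finite_pow {G : Type} [Group G] {S : Set G} (hS : S.Finite) (n : ℕ) : (S ^ n).Finite := by
  induction n with
  | zero => rw [pow_zero]; exact Set.finite_one
  | succ n ih => rw [pow_succ]; exact ih.mul hS

theorem SubexpGrowth.sq {A B : Type} [Group A] [Group B] (h : SubQ A B) (hB : SubexpGrowth B) :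
    SubexpGrowth A := by
  obtain ⟨T, _, i, f, hi, hf⟩ := h
  intro S hS c hc
  obtain ⟨g, hg⟩ := hf.hasRightInverse
  have h1 : f '' (g '' S) = S := by
    rw [← Set.image_comp]
    convert Set.image_id S using 1
    exact Set.image_congr fun a _ => hg a
  obtain ⟨n₀, hn⟩ := hB (i '' (g '' S)) ((hS.image g).image i) c hc
  refine ⟨n₀, fun n hn' => le_trans ?_ (hn n hn')⟩
  have h2 : S ^ n = f '' ((g '' S) ^ n) := by
    rw [Set.image_pow, h1]
  have h3 : ((i '' (g '' S)) ^ n).ncard = ((g '' S) ^ n).ncard := by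
    rw [← Set.image_pow, Set.ncard_image_of_injective _ hi]
  rw [h2, h3]
  exact_mod_cast Set.ncard_image_le (finite_pow (hS.image g) n)

/-- The two generators of a free submonoid. -/
def SS (x : ℕ → ℕ) : Set (Wr P) := {tW, tW * bW x}

theorem t_ne_one : t ≠ 1 := by
  intro h
  have h2 : iota tW = iota 1 := by rw [iota_tW, h, map_one]
  have := congrArg Wr.e (iota_injective h2)
  simp at this

theorem SS_finite' (x : ℕ → ℕ) : (SS x).Finite := by
  unfold SS
  exact Set.toFinite _

theorem SS_finite (x : ℕ → ℕ) (n : ℕ) : (SS x ^ n).Finite := finite_pow (SS_finite' x) n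

theorem SS_s (x : ℕ → ℕ) (n : ℕ) (g : Wr P) (hg : g ∈ SS x ^ n) (q : ℤ) (hq : q ≤ 0) :
    g.s q = 1 := by
  induction n generalizing g q with
  | zero =>
    rw [pow_zero, Set.mem_one] at hg
    rw [hg, Wr.one_s]
  | succ n ih =>
    rw [pow_succ'] at hg
    obtain ⟨a, ha, g', hg', rfl⟩ := hg
    have h1 : a.s q = 1 ∧ a.e = 1 := by
      rcases ha with rfl | rfl
      · simp
      · have h2 : q - 1 ≠ 0 := by omega
        have h3 : q - 1 ≠ x 0 := by omega
        simp [h2, h3]
    change a.s q * g'.s (q - a.e) = 1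
    rw [h1.1, h1.2, ih g' hg' (q - 1) (by omega), one_mul]

theorem two_pow_le (x : ℕ → ℕ) (n : ℕ) : 2 ^ n ≤ (SS x ^ n).ncard := by
  induction n with
  | zero => rw [pow_zero, pow_zero, ← Set.singleton_one, Set.ncard_singleton]
  | succ n ih =>
    have h1 : ((fun g => tW * g) '' (SS x ^ n)) ∪ ((fun g => tW * bW x * g) '' (SS x ^ n)) ⊆
        SS x ^ (n + 1) := by
      rw [pow_succ']
      rintro _ (⟨g, hg, rfl⟩ | ⟨g, hg, rfl⟩)
      · exact Set.mul_mem_mul (by simp [SS]) hg
      · exact Set.mul_mem_mul (by simp [SS]) hg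
    have h2 : Disjoint ((fun g => tW * g) '' (SS x ^ n))
        ((fun g => tW * bW x * g) '' (SS x ^ n)) := by
      rw [Set.disjoint_left]
      rintro _ ⟨g, hg, rfl⟩ ⟨g', hg', h⟩
      have h3 := congrArg (fun u : Wr P => u.s 1) h
      simp only [Wr.mul_s, tW_s, tW_e, bW_s, bW_e, Wr.mul_e, sub_self, if_true, one_mul,
        add_zero] at h3
      rw [SS_s x n g hg 0 le_rfl, SS_s x n g' hg' 0 le_rfl, mul_one] at h3
      exact t_ne_one h3
    have h3 := Set.ncard_le_ncard h1 (SS_finite x (n + 1))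
    rw [Set.ncard_union_eq h2 ((SS_finite x n).image _) ((SS_finite x n).image _),
      Set.ncard_image_of_injective _ (mul_right_injective _),
      Set.ncard_image_of_injective _ (mul_right_injective _)] at h3
    rw [pow_succ]
    omega

theorem not_subexp (x : ℕ → ℕ) : ¬ SubexpGrowth (GW x) := by
  intro h
  have h1 : SS x ⊆ GW x := by
    rintro _ (rfl | rfl)
    · exact tW_mem x
    · exact mul_mem (tW_mem x) (bW_mem x)
  let S : Set (GW x) := Subtype.val ⁻¹' (SS x)
  have h2 : Subtype.val '' S = SS x := by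
    exact Set.image_preimage_eq_of_subset fun a ha => ⟨⟨a, h1 ha⟩, rfl⟩
  have hS : S.Finite := Set.Finite.preimage Subtype.val_injective.injOn (SS_finite' x)
  obtain ⟨n₀, hn⟩ := h S hS (3 / 2) (by norm_num)
  have h3 : (S ^ (n₀ + 1)).ncard = (SS x ^ (n₀ + 1)).ncard := by
    rw [← h2, ← Set.ncard_image_of_injective _ (GW x).subtype_injective, Set.image_pow]
    rfl
  have h4 := hn (n₀ + 1) (by omega)
  have h5 := two_pow_le x (n₀ + 1)
  rw [h3] at h4
  have h6 : ((2 : ℝ)) ^ (n₀ + 1) ≤ ((SS x ^ (n₀ + 1)).ncard : ℝ) := by exact_mod_cast h5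
  have h7 : ((3 : ℝ) / 2) ^ (n₀ + 1) < 2 ^ (n₀ + 1) :=
    pow_lt_pow_left₀ (by norm_num) (by norm_num) (by omega)
  linarith

/-- the quotient of a subgroup by its intersection with a normal subgroup. -/
theorem not_bad_extension {G : Type} [Group G] (N : Subgroup G) [N.Normal] (h1 : ¬ Bad N)
    (h2 : ¬ Bad (G ⧸ N)) : ¬ Bad G := by
  rintro ⟨y, hy, T, _, i, f, hi, hf⟩
  let R : Subgroup T := N.comap i
  let K : Subgroup (GW y) := R.map f
  have hK : K.Normal := Subgroup.Normal.map inferInstance f hf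
  by_cases hb : K = ⊥
  · apply h2
    have hRf : R ≤ f.ker := by
      intro r hr
      have : f r ∈ K := ⟨r, hr, rfl⟩
      rw [hb] at this
      exact this
    refine ⟨y, hy, T ⧸ R, inferInstance, QuotientGroup.map R N i le_rfl,
      QuotientGroup.lift R f hRf, ?_, ?_⟩
    · rw [injective_iff_map_eq_one]
      intro a
      induction a using QuotientGroup.induction_on with
      | H z =>
        intro hz
        rw [QuotientGroup.map_mk, QuotientGroup.eq_one_iff] at hz
        exact (QuotientGroup.eq_one_iff z).2 hz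
    · intro a
      obtain ⟨z, rfl⟩ := hf a
      exact ⟨(z : T ⧸ R), rfl⟩
  · apply h1
    refine (bad_of_normal y hy K hb).mono ⟨R, inferInstance,
      (i.comp R.subtype).codRestrict N fun r => r.2,
      (f.comp R.subtype).codRestrict K fun r => ⟨r.1, r.2, rfl⟩, ?_, ?_⟩
    · intro a c hac
      have := congrArg (fun u : N => (u : G)) hac
      exact Subtype.ext (hi this)
    · rintro ⟨_, z, hz, rfl⟩
      exact ⟨⟨z, hz⟩, rfl⟩

theorem not_bad_union {G : Type} [Group G] {ι : Type} (S : ι → Subgroup G)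
    (dir : Directed (· ≤ ·) S) (union : ∀ g : G, ∃ i, g ∈ S i) (h : ∀ i, ¬ Bad (S i)) :
    ¬ Bad G := by
  rintro ⟨y, hy, T, _, i, f, hi, hf⟩
  obtain ⟨t₁, ht₁⟩ := hf ⟨tW, tW_mem y⟩
  obtain ⟨t₂, ht₂⟩ := hf ⟨bW y, bW_mem y⟩
  obtain ⟨k₁, hk₁⟩ := union (i t₁)
  obtain ⟨k₂, hk₂⟩ := union (i t₂)
  obtain ⟨k, h1, h2⟩ := dir k₁ k₂
  apply h k
  let R : Subgroup T := (S k).comap i
  refine ⟨y, hy, R, inferInstance, (i.comp R.subtype).codRestrict (S k) fun r => r.2,
    f.comp R.subtype, ?_, ?_⟩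
  · intro a c hac
    have := congrArg (fun u : S k => (u : G)) hac
    exact Subtype.ext (hi this)
  · have h3 : (⊤ : Subgroup (GW y)) ≤ R.map f := by
      have h4 : (GW y) ≤ (R.map f).map (GW y).subtype := by
        conv_lhs => rw [GW]
        rw [closure_le]
        rintro _ (rfl | rfl)
        · exact ⟨⟨tW, tW_mem y⟩, ⟨t₁, h1 hk₁, ht₁⟩, rfl⟩
        · exact ⟨⟨bW y, bW_mem y⟩, ⟨t₂, h2 hk₂, ht₂⟩, rfl⟩
      intro a _
      obtain ⟨c, hc, hca⟩ := h4 a.2
      have : c = a := Subtype.ext hca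
      rwa [← this]
    intro a
    obtain ⟨r, hr, hra⟩ := h3 (mem_top a)
    exact ⟨⟨r, hr⟩, hra⟩

theorem not_bad_of_SG {G : Type} [Group G] (h : SG G) : ¬ Bad G := by
  induction h with
  | subexp h =>
    rintro ⟨y, hy, hs⟩
    exact not_subexp y (h.sq hs)
  | equiv e _ ih => exact fun hb => ih (hb.mono (SubQ.of_surjective e.toMonoidHom e.surjective |>.trans
      (SubQ.refl _)))
  | subgroup H _ ih => exact fun hb => ih (hb.mono (SubQ.of_injective H.subtype H.subtype_injective))
  | quotient N _ ih =>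
    exact fun hb => ih (hb.mono (SubQ.of_surjective (QuotientGroup.mk' N)
      (QuotientGroup.mk'_surjective N)))
  | extension N _ _ ih1 ih2 => exact not_bad_extension N ih1 ih2
  | directedUnion S dir union _ ih => exact not_bad_union S dir union ih

/-- **The groups `GW x`, `x` without zeros, are not in the class `SG`.** -/
theorem not_SG (x : ℕ → ℕ) (hx : ∀ n, x n ≠ 0) : ¬ SG (GW x) :=
  fun h => not_bad_of_SG h ⟨x, hx, SubQ.refl _⟩

end Vale.Agent.P215.H788
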