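import Mathlib

/-!
# P215: the wreath product with `ℤ` and the group of permutations of finite words
-/

noncomputable section

namespace Vale.Agent.P215.H788

/-- The (unrestricted) wreath product `H ≀ ℤ`: `s q` is the section which ends at `q`, `e` the
shift. -/
@[ext]
structure Wr (H : Type) : Type where
  /-- the sections -/
  s : ℤ → H
  /-- the shift -/
  e : ℤ

namespace Wr

variable {H : Type} [Group H]

instance : Mul (Wr H) := ⟨fun x y => ⟨fun q => x.s q * y.s (q - x.e), x.e + y.e⟩⟩
instance : One (Wr H) := ⟨⟨fun _ => 1, 0⟩⟩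
instance : Inv (Wr H) := ⟨fun x => ⟨fun q => (x.s (q + x.e))⁻¹, -x.e⟩⟩

@[simp] theorem mul_s (x y : Wr H) (q : ℤ) : (x * y).s q = x.s q * y.s (q - x.e) := rfl
@[simp] theorem mul_e (x y : Wr H) : (x * y).e = x.e + y.e := rfl
@[simp] theorem one_s (q : ℤ) : (1 : Wr H).s q = 1 := rfl
@[simp] theorem one_e : (1 : Wr H).e = 0 := rfl
@[simp] theorem inv_s (x : Wr H) (q : ℤ) : (x⁻¹).s q = (x.s (q + x.e))⁻¹ := rfl
@[simp] theorem inv_e (x : Wr H) : (x⁻¹).e = -x.e := rfl

instance : Group (Wr H) :=
  Group.ofLeftAxioms
    (by
      intro a b c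
      ext q
      · simp only [mul_s, mul_e, mul_assoc, sub_sub]
      · simp only [mul_e, add_assoc])
    (by
      intro a
      ext q
      · simp only [mul_s, one_s, one_mul, one_e, sub_zero]
      · simp only [mul_e, one_e, zero_add])
    (by
      intro a
      ext q
      · simp only [mul_s, inv_s, inv_e, sub_neg_eq_add, inv_mul_cancel, one_s]
      · simp only [mul_e, inv_e, neg_add_cancel, one_e])

/-- The shift homomorphism. -/
def eHom : Wr H →* Multiplicative ℤ where
  toFun x := Multiplicative.ofAdd x.e
  map_one' := rfl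
  map_mul' _ _ := rfl

theorem pow_e (x : Wr H) (n : ℤ) : (x ^ n).e = n * x.e := by
  have h := map_zpow (eHom (H := H)) x n
  have h2 : Multiplicative.ofAdd (x ^ n).e = (Multiplicative.ofAdd x.e) ^ n := h
  rw [← ofAdd_zsmul] at h2
  have h3 := Multiplicative.ofAdd.injective h2
  rw [h3, smul_eq_mul]

/-- The element with the single section `h` at `p`. -/
def single (p : ℤ) : H →* Wr H where
  toFun h := ⟨fun q => if q = p then h else 1, 0⟩
  map_one' := by ext q <;> simp
  map_mul' a b := by
    ext q
    · by_cases h : q = p <;> simp [h]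
    · simp

@[simp] theorem single_s (p : ℤ) (h : H) (q : ℤ) : (single p h).s q = if q = p then h else 1 := rfl
@[simp] theorem single_e (p : ℤ) (h : H) : (single p h).e = 0 := rfl

theorem single_injective (p : ℤ) : Function.Injective (single (H := H) p) := by
  intro a b h
  have := congrArg (fun x : Wr H => x.s p) h
  simpa using this

/-- The base group. -/
def base (H : Type) [Group H] : Subgroup (Wr H) where
  carrier := {x | x.e = 0}
  one_mem' := rfl
  mul_mem' {a b} ha hb := by
    simp only [Set.mem_ofPred_eq] at ha hb ⊢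
    simp [ha, hb]
  inv_mem' {a} ha := by
    simp only [Set.mem_ofPred_eq] at ha ⊢
    simp [ha]

theorem mem_base {x : Wr H} : x ∈ base H ↔ x.e = 0 := Iff.rfl

/-- The section homomorphism on the base group. -/
def sec (q : ℤ) : base H →* H where
  toFun x := x.1.s q
  map_one' := rfl
  map_mul' a b := by
    have h : a.1.e = 0 := a.2
    simp [h]

end Wr

/-- The group of all permutations of finite words in the alphabet `ℤ`. -/
abbrev P : Type := Equiv.Perm (List ℤ)

/-- The action of an element of the wreath product on words. -/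
def iotaFun (x : Wr P) : List ℤ → List ℤ
  | [] => []
  | p :: l => (p + x.e) :: x.s (p + x.e) l

theorem iotaFun_mul (x y : Wr P) (l : List ℤ) : iotaFun (x * y) l = iotaFun x (iotaFun y l) := by
  cases l with
  | nil => rfl
  | cons p l =>
    have h : p + (x.e + y.e) - x.e = p + y.e := by ring
    have h2 : p + (x.e + y.e) = p + y.e + x.e := by ring
    simp only [iotaFun, Wr.mul_e, Wr.mul_s, h, Equiv.Perm.mul_apply]
    rw [h2]

theorem iotaFun_one (l : List ℤ) : iotaFun 1 l = l := by
  cases l with
  | nil => rfl
  | cons p l => simp [iotaFun]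

/-- The embedding `P ≀ ℤ → P`. -/
def iota : Wr P →* P where
  toFun x :=
    { toFun := iotaFun x
      invFun := iotaFun x⁻¹
      left_inv := fun l => by rw [← iotaFun_mul, inv_mul_cancel, iotaFun_one]
      right_inv := fun l => by rw [← iotaFun_mul, mul_inv_cancel, iotaFun_one] }
  map_one' := by
    ext1 l
    exact iotaFun_one l
  map_mul' x y := by
    ext1 l
    exact iotaFun_mul x y l

@[simp] theorem iota_nil (x : Wr P) : iota x [] = [] := rfl

@[simp] theorem iota_cons (x : Wr P) (p : ℤ) (l : List ℤ) :
    iota x (p :: l) = (p + x.e) :: x.s (p + x.e) l := rfl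

theorem iota_injective : Function.Injective iota := by
  intro x y h
  have h1 : x.e = y.e := by
    have := congrArg (fun g : P => g [0]) h
    simp only [iota_cons, zero_add, List.cons.injEq] at this
    exact this.1
  refine Wr.ext (funext fun q => Equiv.ext fun l => ?_) h1
  have := congrArg (fun g : P => g ((q - x.e) :: l)) h
  simp only [iota_cons, sub_add_cancel] at this
  rw [← h1, sub_add_cancel] at this
  simpa using this

/-- The generator `t`. -/
def tW : Wr P := ⟨fun _ => 1, 1⟩

/-- The generator `t`, acting on words: it adds `1` to the first letter. -/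
def t : P := iota tW

/-- The shift of a sequence. -/
def tl (x : ℕ → ℕ) : ℕ → ℕ := fun n => x (n + 1)

/-- The generator `b` and its inverse (`c = 1` or `c = -1`), acting on words. -/
def bFun (c : ℤ) : (ℕ → ℕ) → List ℤ → List ℤ
  | _, [] => []
  | x, p :: l => if p = 0 then p :: (t ^ c) l else if p = x 0 then p :: bFun c (tl x) l else p :: l

theorem bFun_bFun (c : ℤ) (x : ℕ → ℕ) (l : List ℤ) : bFun c x (bFun (-c) x l) = l := by
  induction l generalizing x with
  | nil => rfl
  | cons p l ih =>
    by_cases h : p = 0
    · simp only [bFun, h, if_true]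
      rw [← Equiv.Perm.mul_apply, zpow_neg, mul_inv_cancel, Equiv.Perm.one_apply]
    · by_cases h' : p = x 0
      · have h0 : (x 0 : ℤ) ≠ 0 := h' ▸ h
        simp only [bFun, h', if_true, if_neg h0, ih]
      · simp only [bFun, if_neg h, if_neg h']

/-- The generator `b x`. -/
def b (x : ℕ → ℕ) : P where
  toFun := bFun 1 x
  invFun := bFun (-1) x
  left_inv l := by
    have := bFun_bFun (-1) x l
    simpa using this
  right_inv l := bFun_bFun 1 x l

/-- The generator `b x` in the wreath product. -/
def bW (x : ℕ → ℕ) : Wr P := ⟨fun q => if q = 0 then t else if q = x 0 then b (tl x) else 1, 0⟩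

theorem iota_bW (x : ℕ → ℕ) : iota (bW x) = b x := by
  ext1 l
  cases l with
  | nil => rfl
  | cons p l =>
    simp only [iota_cons]
    change _ = bFun 1 x (p :: l)
    by_cases h : p = 0
    · simp [bFun, bW, h]
    · by_cases h' : p = x 0
      · have h0 : (x 0 : ℤ) ≠ 0 := h' ▸ h
        simp only [bFun, bW, h', if_true, if_neg h0, add_zero]
        rfl
      · simp [bFun, bW, h, h']

theorem iota_tW : iota tW = t := rfl

end Vale.Agent.P215.H788
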